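/-
Row 324, module G (geometry).  SHARED DEFINITIONS (no sorry).  Chief of geometry: helper427.
Blueprint: origin/helper232:docs/R324_blueprint.md section 2;  design of the Lean chain: header of `R324/Geo/Main.lean`.

* `EN q = R^3 x R^(q+2)` ambient space, `Ed q = R^(q+3)` parameter space, `iy q` = index 3 (height `y` on `S^(q+1)`).
* `ambS q A B C p` : STATIC ambient bilinear form `A(y) <ξ_v,η_v> + B(y) ξ_3 η_3 + C(y) <ξ_u,η_u>`, `y = p 3`, `A B C : ℝ → ℝ`.
* `amb q A B C t` : the same for `A B C : ℝ × ℝ → ℝ` at time `t`  (definitionally `ambS` of the time slices).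
* `jac θ x`, `pullG θ G`, `ricM G u` : Jacobi matrix, pull back of a matrix field, Ricci matrix.
* adapted chart: coordinates `x = (r, z, w)`, index `0` = `r`, indices `1..q` = `z`, indices `q+1, q+2` = `w`.
-/
import Claimed.Prelude.Def_0510
import Claimed.Agent.R324.Reduced

set_option autoImplicit false

namespace Claimed.Agent.R324

open Set Claims.C0510
open scoped ContDiff

/-- ambient space `R^3 x R^(q+2)`. -/
abbrev EN (q : ℕ) := EuclideanSpace ℝ (Fin (3 + (q + 2)))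

/-- parameter space `R^(q+3)`. -/
abbrev Ed (q : ℕ) := EuclideanSpace ℝ (Fin (q + 3))

/-- index of the height coordinate `y` (first coordinate of the second factor). -/
def iy (q : ℕ) : Fin (3 + (q + 2)) := ⟨3, by omega⟩

/-- the bilinear form `(ξ,η) ↦ ξ_i η_i`. -/
noncomputable def formI {N : ℕ} (i : Fin N) :
    EuclideanSpace ℝ (Fin N) →L[ℝ] EuclideanSpace ℝ (Fin N) →L[ℝ] ℝ :=
  (EuclideanSpace.proj i : EuclideanSpace ℝ (Fin N) →L[ℝ] ℝ).smulRight
    (EuclideanSpace.proj i : EuclideanSpace ℝ (Fin N) →L[ℝ] ℝ)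

/-- `<ξ_u,η_u>` (first factor `R^3`). -/
noncomputable def formU (q : ℕ) : EN q →L[ℝ] EN q →L[ℝ] ℝ :=
  ∑ i : Fin (3 + (q + 2)) with i.val < 3, formI i

/-- `<ξ_v,η_v>` (second factor `R^(q+2)`). -/
noncomputable def formV (q : ℕ) : EN q →L[ℝ] EN q →L[ℝ] ℝ :=
  ∑ i : Fin (3 + (q + 2)) with 3 ≤ i.val, formI i

/-- `ξ_3 η_3 = dy^2`. -/
noncomputable def formY (q : ℕ) : EN q →L[ℝ] EN q →L[ℝ] ℝ := formI (iy q)

/-- static ambient form with coefficient functions of the height. -/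
noncomputable def ambS (q : ℕ) (A B C : ℝ → ℝ) (p : EN q) : EN q →L[ℝ] EN q →L[ℝ] ℝ :=
  A (p (iy q)) • formV q + B (p (iy q)) • formY q + C (p (iy q)) • formU q

/-- the ambient form at time `t`. -/
noncomputable def amb (q : ℕ) (A B C : ℝ × ℝ → ℝ) (t : ℝ) : EN q → EN q →L[ℝ] EN q →L[ℝ] ℝ :=
  ambS q (fun y => A (t, y)) (fun y => B (t, y)) (fun y => C (t, y))

/-- time derivative of a coefficient function, as a function of `y`. -/
noncomputable def dtOf (A : ℝ × ℝ → ℝ) (t : ℝ) : ℝ → ℝ := fun y => deriv (fun s => A (s, y)) t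

/-- the time derivative of the ambient form. -/
noncomputable def ambDot (q : ℕ) (A B C : ℝ × ℝ → ℝ) (t : ℝ) : EN q → EN q →L[ℝ] EN q →L[ℝ] ℝ :=
  ambS q (dtOf A t) (dtOf B t) (dtOf C t)

/-- static version of `laOf`. -/
noncomputable def laS (A B : ℝ → ℝ) (y : ℝ) : ℝ :=
  Real.log ((A y + (1 - y ^ 2) * B y) / (1 - y ^ 2))

/-- static version of `lbOf`. -/
noncomputable def lbS (A : ℝ → ℝ) (y : ℝ) : ℝ := Real.log (A y * (1 - y ^ 2))

/-- static version of `lcOf`. -/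
noncomputable def lcS (C : ℝ → ℝ) (y : ℝ) : ℝ := Real.log (C y)

theorem laOf_eq_laS (A B : ℝ × ℝ → ℝ) (t : ℝ) :
    laOf A B t = laS (fun y => A (t, y)) (fun y => B (t, y)) := rfl

theorem lbOf_eq_lbS (A : ℝ × ℝ → ℝ) (t : ℝ) : lbOf A t = lbS (fun y => A (t, y)) := rfl

theorem lcOf_eq_lcS (C : ℝ × ℝ → ℝ) (t : ℝ) : lcOf C t = lcS (fun y => C (t, y)) := rfl

/-! ### matrix fields -/

/-- entrywise smoothness of a matrix field. -/
def SmoothG {d : ℕ} (G : EuclideanSpace ℝ (Fin d) → Matrix (Fin d) (Fin d) ℝ)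
    (U : Set (EuclideanSpace ℝ (Fin d))) : Prop :=
  ∀ i j, ContDiffOn ℝ ∞ (fun x => G x i j) U

/-- Jacobi matrix `jac θ x b i = ∂_i θ^b (x)`. -/
noncomputable def jac {d : ℕ} (θ : EuclideanSpace ℝ (Fin d) → EuclideanSpace ℝ (Fin d))
    (x : EuclideanSpace ℝ (Fin d)) : Matrix (Fin d) (Fin d) ℝ :=
  Matrix.of fun b i => pdiff (fun w => θ w b) i x

/-- pull back of a matrix field (a `(0,2)` tensor) by `θ`. -/
noncomputable def pullG {d : ℕ} (θ : EuclideanSpace ℝ (Fin d) → EuclideanSpace ℝ (Fin d))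
    (G : EuclideanSpace ℝ (Fin d) → Matrix (Fin d) (Fin d) ℝ) :
    EuclideanSpace ℝ (Fin d) → Matrix (Fin d) (Fin d) ℝ :=
  fun x => (jac θ x).transpose * G (θ x) * jac θ x

/-- the Ricci tensor as a matrix. -/
noncomputable def ricM {d : ℕ} (G : EuclideanSpace ℝ (Fin d) → Matrix (Fin d) (Fin d) ℝ)
    (u : EuclideanSpace ℝ (Fin d)) : Matrix (Fin d) (Fin d) ℝ :=
  Matrix.of fun j k => ricciCoord G u j k

/-! ### the adapted chart `(r, z, w)` -/

/-- conformal factor of the stereographic chart of `S^q` (coordinates `1..q`). -/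
noncomputable def sZ (q : ℕ) (x : Ed q) : ℝ :=
  1 / (1 + (∑ j : Fin (q + 3) with 1 ≤ j.val ∧ j.val ≤ q, x j ^ 2) / 4)

/-- conformal factor of the stereographic chart of `S^2` (coordinates `q+1, q+2`). -/
noncomputable def sW (q : ℕ) (x : Ed q) : ℝ :=
  1 / (1 + (∑ j : Fin (q + 3) with q < j.val, x j ^ 2) / 4)

/-- diagonal of the metric in the adapted chart:
`e^a(r)`, `e^b(r) s(z)^2` (`q` times), `e^c(r) s(w)^2` (twice). -/
noncomputable def adDiag (q : ℕ) (A B C : ℝ → ℝ) (x : Ed q) (j : Fin (q + 3)) : ℝ :=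
  if j.val = 0 then (A (x 0) + (1 - x 0 ^ 2) * B (x 0)) / (1 - x 0 ^ 2)
  else if j.val ≤ q then A (x 0) * (1 - x 0 ^ 2) * sZ q x ^ 2
  else C (x 0) * sW q x ^ 2

/-- the metric in the adapted chart. -/
noncomputable def adG (q : ℕ) (A B C : ℝ → ℝ) : Ed q → Matrix (Fin (q + 3)) (Fin (q + 3)) ℝ :=
  fun x => Matrix.diagonal (adDiag q A B C x)

/-- `-2 Ric_jj / G_jj` at the centre of the adapted chart. -/
noncomputable def adRf (q : ℕ) (A B C : ℝ → ℝ) (y : ℝ) (j : Fin (q + 3)) : ℝ :=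
  if j.val = 0 then rfA q (laS A B) (lbS A) (lcS C) y
  else if j.val ≤ q then rfB q (laS A B) (lbS A) (lcS C) y
  else rfC q (laS A B) (lbS A) (lcS C) y

/-- centre `(y, 0, 0)` of the adapted chart. -/
noncomputable def adC (q : ℕ) (y : ℝ) : Ed q := EuclideanSpace.single 0 y

/-- domain of the adapted chart. -/
def adW (q : ℕ) : Set (Ed q) := {x | x 0 ∈ Ioo (-1 : ℝ) 1}

end Claimed.Agent.R324
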