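/-
Row 324, module G, leaf Centre (chief helper427): values at the centre `adC q y = (y,0,..,0)` of the adapted chart; counting of the index classes.
PROOFS.  `adC q y = EuclideanSpace.single 0 y`: `EuclideanSpace.single_apply` (`simp [adC]`); for `j ≠ 0` the coordinate is `0`, so the sums in `sZ, sW` vanish
 (`Finset.sum_eq_zero`; in the filters `j.val ≥ 1`, hence `j ≠ 0`: `Fin.ext_iff`, `omega`).
 `sum_classes`: split `Finset.univ` of `Fin (q+3)` according to the `if`s: `Fin.sum_univ_succ` for the index 0, then e.g. `Fin.sum_univ_add`/`Fin.sum_univ_castSucc` twice for the last two,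
 or: `Finset.sum_ite` + cardinalities of the filters; or induction-free: `∑ j, f j = ∑ k ∈ range (q+3), ..` (`Fin.sum_univ_eq_sum_range`) and `Finset.sum_range_succ`, `Finset.sum_range_succ'`.
-/
import Claimed.Agent.R324.Geo.Defs

set_option autoImplicit false

namespace Claimed.Agent.R324

open Set Filter Topology Claims.C0510
open scoped ContDiff

theorem adC_zero (q : ℕ) (y : ℝ) : adC q y 0 = y := by
  simp [adC]

theorem adC_mem (q : ℕ) {y : ℝ} (hy : y ∈ Ioo (-1 : ℝ) 1) : adC q y ∈ adW q := by
  show adC q y 0 ∈ Ioo (-1 : ℝ) 1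
  rw [adC_zero]
  exact hy

theorem adW_isOpen (q : ℕ) : IsOpen (adW q) := by
  have hc : Continuous (fun x : Ed q => x 0) :=
    (EuclideanSpace.proj (0 : Fin (q + 3)) : Ed q →L[ℝ] ℝ).continuous
  exact isOpen_Ioo.preimage hc

theorem centre_adC_ne (q : ℕ) (y : ℝ) {j : Fin (q + 3)} (hj : j ≠ 0) : adC q y j = 0 := by
  simp [adC, hj]

theorem sZ_adC (q : ℕ) (y : ℝ) : sZ q (adC q y) = 1 := by
  unfold sZ
  rw [Finset.sum_eq_zero]
  · norm_num
  · intro j hj
    rw [Finset.mem_filter] at hj
    rw [centre_adC_ne q y (by intro h; rw [h] at hj; simp at hj)]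
    norm_num

theorem sW_adC (q : ℕ) (y : ℝ) : sW q (adC q y) = 1 := by
  unfold sW
  rw [Finset.sum_eq_zero]
  · norm_num
  · intro j hj
    rw [Finset.mem_filter] at hj
    rw [centre_adC_ne q y (by intro h; rw [h] at hj; simp at hj)]
    norm_num

theorem adDiag_adC (q : ℕ) (A B C : ℝ → ℝ) (y : ℝ) (j : Fin (q + 3)) :
    adDiag q A B C (adC q y) j =
      if j.val = 0 then (A y + (1 - y ^ 2) * B y) / (1 - y ^ 2)
      else if j.val ≤ q then A y * (1 - y ^ 2) else C y := by
  unfold adDiag
  rw [adC_zero, sZ_adC, sW_adC]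
  simp

/-- one index of the first class, `q` of the second, two of the third. -/
theorem sum_classes (q : ℕ) (a b c : ℝ) :
    ∑ j : Fin (q + 3), (if j.val = 0 then a else if j.val ≤ q then b else c) = a + q * b + 2 * c := by
  rw [Fin.sum_univ_eq_sum_range (fun n => if n = 0 then a else if n ≤ q then b else c) (q + 3),
    Finset.sum_range_succ, Finset.sum_range_succ, Finset.sum_range_succ']
  have h1 : ∑ k ∈ Finset.range q, (if k + 1 = 0 then a else if k + 1 ≤ q then b else c) = q * b := by
    rw [Finset.sum_congr rfl (g := fun _ => b)]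
    · simp
    · intro k hk
      rw [Finset.mem_range] at hk
      rw [if_neg (by omega), if_pos (by omega)]
  rw [h1, if_pos rfl, if_neg (by omega), if_neg (by omega), if_neg (by omega), if_neg (by omega)]
  ring

end Claimed.Agent.R324
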