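/-
Row 324, module G.  Evaluation of the fixed bilinear forms and of the ambient form (helper427).  No sorry.
-/
import Claimed.Agent.R324.Geo.Defs

set_option autoImplicit false

namespace Claimed.Agent.R324

open Set Claims.C0510
open scoped ContDiff

theorem formI_apply {N : ℕ} (i : Fin N) (ξ η : EuclideanSpace ℝ (Fin N)) :
    formI i ξ η = ξ i * η i := by
  simp [formI]

theorem formU_apply (q : ℕ) (ξ η : EN q) :
    formU q ξ η = ∑ i : Fin (3 + (q + 2)) with i.val < 3, ξ i * η i := by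
  simp [formU, formI_apply]

theorem formV_apply (q : ℕ) (ξ η : EN q) :
    formV q ξ η = ∑ i : Fin (3 + (q + 2)) with 3 ≤ i.val, ξ i * η i := by
  simp [formV, formI_apply]

theorem formY_apply (q : ℕ) (ξ η : EN q) : formY q ξ η = ξ (iy q) * η (iy q) :=
  formI_apply _ _ _

theorem formU_comm (q : ℕ) (ξ η : EN q) : formU q ξ η = formU q η ξ := by
  simp only [formU_apply, mul_comm]

theorem formV_comm (q : ℕ) (ξ η : EN q) : formV q ξ η = formV q η ξ := by
  simp only [formV_apply, mul_comm]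

theorem formY_comm (q : ℕ) (ξ η : EN q) : formY q ξ η = formY q η ξ := by
  simp only [formY_apply, mul_comm]

theorem ambS_apply (q : ℕ) (A B C : ℝ → ℝ) (p ξ η : EN q) :
    ambS q A B C p ξ η =
      A (p (iy q)) * formV q ξ η + B (p (iy q)) * formY q ξ η + C (p (iy q)) * formU q ξ η := by
  simp [ambS]

theorem ambS_comm (q : ℕ) (A B C : ℝ → ℝ) (p ξ η : EN q) :
    ambS q A B C p ξ η = ambS q A B C p η ξ := by
  rw [ambS_apply, ambS_apply, formU_comm, formV_comm, formY_comm]

theorem coordMetric_apply {d N : ℕ}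
    (g : EuclideanSpace ℝ (Fin N) → EuclideanSpace ℝ (Fin N) →L[ℝ] EuclideanSpace ℝ (Fin N) →L[ℝ] ℝ)
    (ψ : EuclideanSpace ℝ (Fin d) → EuclideanSpace ℝ (Fin N)) (u : EuclideanSpace ℝ (Fin d))
    (i j : Fin d) :
    coordMetric g ψ u i j =
      g (ψ u) (fderiv ℝ ψ u (EuclideanSpace.single i 1)) (fderiv ℝ ψ u (EuclideanSpace.single j 1)) :=
  rfl

theorem coordMetric_ambS_apply (q : ℕ) (A B C : ℝ → ℝ) (ψ : Ed q → EN q) (u : Ed q)
    (i j : Fin (q + 3)) :
    coordMetric (ambS q A B C) ψ u i j =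
      A (ψ u (iy q)) * formV q (fderiv ℝ ψ u (EuclideanSpace.single i 1))
          (fderiv ℝ ψ u (EuclideanSpace.single j 1))
        + B (ψ u (iy q)) * formY q (fderiv ℝ ψ u (EuclideanSpace.single i 1))
          (fderiv ℝ ψ u (EuclideanSpace.single j 1))
        + C (ψ u (iy q)) * formU q (fderiv ℝ ψ u (EuclideanSpace.single i 1))
          (fderiv ℝ ψ u (EuclideanSpace.single j 1)) := by
  rw [coordMetric_apply, ambS_apply]

theorem coordMetric_ambS_isSymm (q : ℕ) (A B C : ℝ → ℝ) (ψ : Ed q → EN q) (u : Ed q) :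
    (coordMetric (ambS q A B C) ψ u).IsSymm := by
  ext i j
  rw [Matrix.transpose_apply, coordMetric_apply, coordMetric_apply, ambS_comm]

/-- the quadratic form of the coordinate matrix is the ambient form on the image vector. -/
theorem coordMetric_quad {d N : ℕ}
    (g : EuclideanSpace ℝ (Fin N) → EuclideanSpace ℝ (Fin N) →L[ℝ] EuclideanSpace ℝ (Fin N) →L[ℝ] ℝ)
    (ψ : EuclideanSpace ℝ (Fin d) → EuclideanSpace ℝ (Fin N)) (u : EuclideanSpace ℝ (Fin d))
    (x : Fin d → ℝ) :
    x ⬝ᵥ (coordMetric g ψ u).mulVec x =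
      g (ψ u) (fderiv ℝ ψ u (WithLp.toLp 2 x)) (fderiv ℝ ψ u (WithLp.toLp 2 x)) := by
  have hx : (WithLp.toLp 2 x : EuclideanSpace ℝ (Fin d)) =
      ∑ i, x i • (EuclideanSpace.single i (1 : ℝ) : EuclideanSpace ℝ (Fin d)) := by
    ext k
    simp [Finset.sum_apply, Pi.single_apply]
  rw [hx]
  simp only [map_sum, map_smul, sum_apply, smul_apply,
    dotProduct, Matrix.mulVec, coordMetric_apply, smul_eq_mul, Finset.mul_sum]
  rw [Finset.sum_comm]
  refine Finset.sum_congr rfl fun i _ => Finset.sum_congr rfl fun j _ => ?_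
  ring

end Claimed.Agent.R324
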