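/-
Row 324, module G, leaf Loc (chief helper427): the curvature quantities of Def_0510 depend only on the GERM of the matrix field.
PROOFS.  `pdiff f i u = fderiv ℝ f u (single i 1)`: use `Filter.EventuallyEq.fderiv_eq`.
`christoffel G u k i j` uses `G u` (`h.eq_of_nhds`) and `pdiff (fun w => G w a b) c u`; from `h : G =ᶠ[𝓝 u] G'` get
`(fun w => G w a b) =ᶠ[𝓝 u] (fun w => G' w a b)` by `h.mono (fun w hw => by rw [hw])` (or `h.fun_comp`).
`christoffel_eventuallyEq`: `h.eventuallyEq_nhds : ∀ᶠ w in 𝓝 u, G =ᶠ[𝓝 w] G'`, then `.mono` with `christoffel_congr`.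
`riemannCoord`: `pdiff_congr` applied to `christoffel_eventuallyEq`, and `christoffel_congr`.  The rest: unfold, rewrite.
-/
import Claimed.Agent.R324.Geo.Defs

set_option autoImplicit false

namespace Claimed.Agent.R324

open Set Filter Topology Claims.C0510
open scoped ContDiff

variable {d : ℕ} {G G' : EuclideanSpace ℝ (Fin d) → Matrix (Fin d) (Fin d) ℝ}
  {u : EuclideanSpace ℝ (Fin d)}

theorem pdiff_congr {f f' : EuclideanSpace ℝ (Fin d) → ℝ} (h : f =ᶠ[𝓝 u] f') (i : Fin d) :
    pdiff f i u = pdiff f' i u := by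
  unfold pdiff
  rw [h.fderiv_eq]

theorem loc_entry (h : G =ᶠ[𝓝 u] G') (a b : Fin d) :
    (fun w => G w a b) =ᶠ[𝓝 u] fun w => G' w a b :=
  h.mono (fun w hw => by simp only [hw])

theorem christoffel_congr (h : G =ᶠ[𝓝 u] G') (k i j : Fin d) :
    christoffel G u k i j = christoffel G' u k i j := by
  unfold christoffel
  rw [h.eq_of_nhds]
  congr 1
  refine Finset.sum_congr rfl (fun l _ => ?_)
  rw [pdiff_congr (loc_entry h j l) i, pdiff_congr (loc_entry h i l) j, pdiff_congr (loc_entry h i j) l]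

theorem christoffel_eventuallyEq (h : G =ᶠ[𝓝 u] G') (k i j : Fin d) :
    (fun w => christoffel G w k i j) =ᶠ[𝓝 u] fun w => christoffel G' w k i j :=
  h.eventuallyEq_nhds.mono (fun _ hw => christoffel_congr hw k i j)

theorem riemannCoord_congr (h : G =ᶠ[𝓝 u] G') (l i j k : Fin d) :
    riemannCoord G u l i j k = riemannCoord G' u l i j k := by
  unfold riemannCoord
  rw [pdiff_congr (christoffel_eventuallyEq h l j k) i, pdiff_congr (christoffel_eventuallyEq h l i k) j]
  congr 1
  refine Finset.sum_congr rfl (fun p _ => ?_)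
  rw [christoffel_congr h l i p, christoffel_congr h p j k, christoffel_congr h l j p,
    christoffel_congr h p i k]

theorem loc_ricciCoord_congr (h : G =ᶠ[𝓝 u] G') (j k : Fin d) :
    ricciCoord G u j k = ricciCoord G' u j k := by
  unfold ricciCoord
  exact Finset.sum_congr rfl (fun i _ => riemannCoord_congr h i i j k)

theorem ricM_congr (h : G =ᶠ[𝓝 u] G') : ricM G u = ricM G' u := by
  unfold ricM
  ext j k
  exact loc_ricciCoord_congr h j k

theorem scalarCoord_congr (h : G =ᶠ[𝓝 u] G') : scalarCoord G u = scalarCoord G' u := by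
  unfold scalarCoord
  rw [h.eq_of_nhds]
  refine Finset.sum_congr rfl (fun j _ => Finset.sum_congr rfl (fun k _ => ?_))
  rw [loc_ricciCoord_congr h j k]

theorem riemannNormSq_congr (h : G =ᶠ[𝓝 u] G') : riemannNormSq G u = riemannNormSq G' u := by
  unfold riemannNormSq
  rw [h.eq_of_nhds]
  simp only [riemannCoord_congr h]

theorem eventuallyEq_of_eqOn_open {O : Set (EuclideanSpace ℝ (Fin d))} (hO : IsOpen O) (hu : u ∈ O)
    (h : ∀ x ∈ O, G x = G' x) : G =ᶠ[𝓝 u] G' :=
  Filter.eventuallyEq_of_mem (hO.mem_nhds hu) h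

end Claimed.Agent.R324
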