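/-
Row 324, module G, leaf RegA (chief helper427): smoothness of partial derivatives, determinant and inverse of a smooth matrix field.
PROOFS.
* `pdiff_contDiffOn`: `pdiff f i = fun x => fderiv ℝ f x (single i 1)`.  On the open set `U`: `ContDiffOn.fderiv_of_isOpen` (with `m + 1 ≤ ∞`, i.e. `le_rfl`/`by simp`)
  gives `ContDiffOn ℝ ∞ (fderiv ℝ f) U`; then `.clm_apply contDiffOn_const`.
* `det_contDiffOn`: `Matrix.det_apply`: finite sum of (sign •) finite products of entries: `ContDiffOn.sum`, `contDiffOn_prod`, `ContDiffOn.const_smul`.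
* `inv_smoothG`: `Matrix.inv_def : A⁻¹ = Ring.inverse A.det • A.adjugate`; `Ring.inverse` of a real number is `⁻¹` (`Ring.inverse_eq_inv'`);
  entries of the adjugate: `Matrix.adjugate_apply : adjugate A i j = det (A.updateRow j (Pi.single i 1))`, again a determinant of a matrix with smooth entries
  (prove `det_contDiffOn` for a general family `M : E → Matrix` with entrywise smooth entries: that is the statement; entries of `updateRow` are `if`s on indices: `Matrix.updateRow_apply`, `split_ifs`);
  `ContDiffOn.inv` needs `det ≠ 0` (`IsUnit.ne_zero`).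
-/
import Claimed.Agent.R324.Geo.Defs

set_option autoImplicit false

namespace Claimed.Agent.R324

open Set Filter Topology Claims.C0510
open scoped ContDiff

variable {d : ℕ} {G : EuclideanSpace ℝ (Fin d) → Matrix (Fin d) (Fin d) ℝ}
  {U : Set (EuclideanSpace ℝ (Fin d))}

theorem pdiff_contDiffOn {f : EuclideanSpace ℝ (Fin d) → ℝ} (hU : IsOpen U)
    (hf : ContDiffOn ℝ ∞ f U) (i : Fin d) : ContDiffOn ℝ ∞ (pdiff f i) U := by
  have h1 : ContDiffOn ℝ ∞ (fderiv ℝ f) U := hf.fderiv_of_isOpen hU (by simp)
  exact h1.clm_apply contDiffOn_const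

theorem det_contDiffOn (hG : SmoothG G U) : ContDiffOn ℝ ∞ (fun x => (G x).det) U := by
  simp only [Matrix.det_apply]
  apply ContDiffOn.sum
  intro σ _
  apply ContDiffOn.const_smul
  apply contDiffOn_prod
  intro i _
  exact hG _ _

theorem inv_smoothG (hG : SmoothG G U) (hdet : ∀ x ∈ U, IsUnit (G x).det) :
    SmoothG (fun x => (G x)⁻¹) U := by
  intro i j
  have hadj : ContDiffOn ℝ ∞ (fun x => (G x).adjugate i j) U := by
    simp only [Matrix.adjugate_apply]
    apply det_contDiffOn (G := fun x => (G x).updateRow j (Pi.single i 1))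
    intro a b
    simp only [Matrix.updateRow_apply]
    split_ifs
    · exact contDiffOn_const
    · exact hG a b
  have hinv : ContDiffOn ℝ ∞ (fun x => ((G x).det)⁻¹) U :=
    (det_contDiffOn hG).inv fun x hx => (hdet x hx).ne_zero
  have e : (fun x => (G x)⁻¹ i j) = fun x => ((G x).det)⁻¹ * (G x).adjugate i j := by
    funext x
    rw [Matrix.inv_def, Ring.inverse_eq_inv', Matrix.smul_apply, smul_eq_mul]
  rw [e]
  exact hinv.mul hadj

end Claimed.Agent.R324
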