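/-
Row 324, module G, leaf ChartSm (chief helper427): the coordinate matrix of the ambient form in a smooth chart is smooth / continuous.
PROOFS.  `coordMetric_ambS_apply` (file Form) writes the entry as
   `A (ψ x (iy q)) * formV q (Dψ x e_i) (Dψ x e_j) + B(..) * formY q .. + C(..) * formU q ..`.
* `fderiv_single_contDiffOn`: `hψ.fderiv_of_isOpen hU` (order `∞ + 1 ≤ ∞`) then `.clm_apply contDiffOn_const`.
* `x ↦ ψ x (iy q)` is smooth: compose with the continuous linear map `EuclideanSpace.proj (iy q)` (`ContinuousLinearMap.contDiff`, `.comp_contDiffOn`);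
  `A ∘ (that)`: `hA.comp_contDiffOn`.
* `x ↦ F (v x) (w x)` for a fixed `F : E →L E →L ℝ`: `(F.contDiff.comp_contDiffOn hv).clm_apply hw` (or `ContinuousLinearMap.isBoundedBilinearMap`).
* the continuous version: same with `Continuous.comp_continuousOn`, `ContinuousOn.clm_apply`; `ContDiffOn.continuousOn` for the derivative vectors.
-/
import Claimed.Agent.R324.Geo.Form

set_option autoImplicit false

namespace Claimed.Agent.R324

open Set Filter Topology Claims.C0510
open scoped ContDiff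

theorem fderiv_single_contDiffOn {d N : ℕ}
    {ψ : EuclideanSpace ℝ (Fin d) → EuclideanSpace ℝ (Fin N)} {U : Set (EuclideanSpace ℝ (Fin d))}
    (hU : IsOpen U) (hψ : ContDiffOn ℝ ∞ ψ U) (i : Fin d) :
    ContDiffOn ℝ ∞ (fun x => fderiv ℝ ψ x (EuclideanSpace.single i 1)) U := by
  have h1 : ContDiffOn ℝ ∞ (fun x => fderiv ℝ ψ x) U := hψ.fderiv_of_isOpen hU (by simp)
  exact h1.clm_apply contDiffOn_const

theorem chartSm_coord_contDiffOn {d N : ℕ}
    {ψ : EuclideanSpace ℝ (Fin d) → EuclideanSpace ℝ (Fin N)} {U : Set (EuclideanSpace ℝ (Fin d))}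
    (hψ : ContDiffOn ℝ ∞ ψ U) (k : Fin N) : ContDiffOn ℝ ∞ (fun x => ψ x k) U :=
  (EuclideanSpace.proj k : EuclideanSpace ℝ (Fin N) →L[ℝ] ℝ).contDiff.comp_contDiffOn hψ

theorem chartSm_form_contDiffOn {d N : ℕ}
    (F : EuclideanSpace ℝ (Fin N) →L[ℝ] EuclideanSpace ℝ (Fin N) →L[ℝ] ℝ)
    {v w : EuclideanSpace ℝ (Fin d) → EuclideanSpace ℝ (Fin N)} {U : Set (EuclideanSpace ℝ (Fin d))}
    (hv : ContDiffOn ℝ ∞ v U) (hw : ContDiffOn ℝ ∞ w U) :
    ContDiffOn ℝ ∞ (fun x => F (v x) (w x)) U :=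
  (F.contDiff.comp_contDiffOn hv).clm_apply hw

theorem chartSm_form_continuousOn {d N : ℕ}
    (F : EuclideanSpace ℝ (Fin N) →L[ℝ] EuclideanSpace ℝ (Fin N) →L[ℝ] ℝ)
    {v w : EuclideanSpace ℝ (Fin d) → EuclideanSpace ℝ (Fin N)} {U : Set (EuclideanSpace ℝ (Fin d))}
    (hv : ContinuousOn v U) (hw : ContinuousOn w U) :
    ContinuousOn (fun x => F (v x) (w x)) U :=
  (F.continuous.comp_continuousOn hv).clm_apply hw

theorem coordMetric_smoothG (q : ℕ) {A B C : ℝ → ℝ} (hA : ContDiff ℝ ∞ A) (hB : ContDiff ℝ ∞ B)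
    (hC : ContDiff ℝ ∞ C) {ψ : Ed q → EN q} {U : Set (Ed q)} (hU : IsOpen U)
    (hψ : ContDiffOn ℝ ∞ ψ U) : SmoothG (coordMetric (ambS q A B C) ψ) U := by
  intro i j
  simp only [coordMetric_ambS_apply]
  have hy := chartSm_coord_contDiffOn hψ (iy q)
  have hi := fderiv_single_contDiffOn hU hψ i
  have hj := fderiv_single_contDiffOn hU hψ j
  exact (((hA.comp_contDiffOn hy).mul (chartSm_form_contDiffOn (formV q) hi hj)).add
    ((hB.comp_contDiffOn hy).mul (chartSm_form_contDiffOn (formY q) hi hj))).add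
    ((hC.comp_contDiffOn hy).mul (chartSm_form_contDiffOn (formU q) hi hj))

theorem coordMetric_continuousOn (q : ℕ) {A B C : ℝ → ℝ} (hA : Continuous A) (hB : Continuous B)
    (hC : Continuous C) {ψ : Ed q → EN q} {U : Set (Ed q)} (hU : IsOpen U)
    (hψ : ContDiffOn ℝ ∞ ψ U) (i j : Fin (q + 3)) :
    ContinuousOn (fun x => coordMetric (ambS q A B C) ψ x i j) U := by
  simp only [coordMetric_ambS_apply]
  have hy := (chartSm_coord_contDiffOn hψ (iy q)).continuousOn
  have hi := (fderiv_single_contDiffOn hU hψ i).continuousOn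
  have hj := (fderiv_single_contDiffOn hU hψ j).continuousOn
  exact (((hA.comp_continuousOn hy).mul (chartSm_form_continuousOn (formV q) hi hj)).add
    ((hB.comp_continuousOn hy).mul (chartSm_form_continuousOn (formY q) hi hj))).add
    ((hC.comp_continuousOn hy).mul (chartSm_form_continuousOn (formU q) hi hj))

end Claimed.Agent.R324
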