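/-
Row 324, module G, leaf Tangent (chief helper427): points of a chart lie on `M = S^2 x S^(q+1)`, derivative vectors are tangent.
PROOFS.
* `param_mem`: `IsLocalParam` contains `∃ V, IsOpen V ∧ ψ '' U = M ∩ V`; `ψ u ∈ ψ '' U`.
* `mem_sphere_iff`: unfold `spherePairProd`, `formU_apply`, `formV_apply`, `sq`/`pow_two`.
* `height_mem_Icc`: `p_3^2 ≤ Σ_{i ≥ 3} p_i^2 = 1` (`Finset.single_le_sum`, the index `iy q` belongs to the filter), `abs_le_one_iff_mul_self_le_one`/`nlinarith`.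
* `tangent_U`: the function `f x = formU q (ψ x) (ψ x)` equals `1` on the open set `U`, so its `fderiv` at `u` vanishes (`Filter.EventuallyEq.fderiv_eq`, `fderiv_const`);
  on the other hand `ψ` is differentiable at `u` and `HasFDerivAt f (ξ ↦ formU (Dψ ξ) (ψ u) + formU (ψ u) (Dψ ξ))`
  (`ContinuousLinearMap.hasFDerivAt_of_bilinear` / `IsBoundedBilinearMap.hasFDerivAt` composed with `x ↦ (ψ x, ψ x)`), `= 2 formU (ψ u) (Dψ ξ)` by `formU_comm`.
  Alternative: coordinatewise, `f x = Σ (ψ x i)^2`.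
-/
import Claimed.Agent.R324.Geo.Form

set_option autoImplicit false

namespace Claimed.Agent.R324

open Set Filter Topology Claims.C0510
open scoped ContDiff

theorem param_mem {d N : ℕ} {M : Set (EuclideanSpace ℝ (Fin N))}
    {ψ : EuclideanSpace ℝ (Fin d) → EuclideanSpace ℝ (Fin N)} {U : Set (EuclideanSpace ℝ (Fin d))}
    (h : IsLocalParam M ψ U) {u : EuclideanSpace ℝ (Fin d)} (hu : u ∈ U) : ψ u ∈ M := by
  obtain ⟨-, -, -, -, ⟨V, -, hV⟩, -⟩ := h
  have : ψ u ∈ M ∩ V := hV ▸ Set.mem_image_of_mem ψ hu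
  exact this.1

theorem mem_sphere_iff (q : ℕ) (p : EN q) :
    p ∈ spherePairProd q ↔ formU q p p = 1 ∧ formV q p p = 1 := by
  rw [formU_apply, formV_apply]
  simp only [← sq]
  exact Iff.rfl

theorem height_mem_Icc (q : ℕ) {p : EN q} (hp : p ∈ spherePairProd q) :
    p (iy q) ∈ Icc (-1 : ℝ) 1 := by
  have h2 : (∑ i : Fin (3 + (q + 2)) with 3 ≤ i.val, p i ^ 2) = 1 := hp.2
  have hmem : iy q ∈ Finset.univ.filter (fun i : Fin (3 + (q + 2)) => 3 ≤ i.val) := by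
    simp [iy]
  have hle : p (iy q) ^ 2 ≤ ∑ i : Fin (3 + (q + 2)) with 3 ≤ i.val, p i ^ 2 :=
    Finset.single_le_sum (f := fun i => p i ^ 2) (fun i _ => sq_nonneg _) hmem
  rw [h2] at hle
  exact abs_le.1 ((sq_le_one_iff_abs_le_one _).1 hle)

/-- a symmetric bilinear form which is constant `= 1` along `ψ` kills the derivative vectors. -/
theorem tang_aux (q : ℕ) (Bf : EN q →L[ℝ] EN q →L[ℝ] ℝ) (hsymm : ∀ x y, Bf x y = Bf y x)
    {ψ : Ed q → EN q} {U : Set (Ed q)} (hU : IsOpen U) (hψ : ContDiffOn ℝ ∞ ψ U)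
    (h1 : ∀ x ∈ U, Bf (ψ x) (ψ x) = 1) {u : Ed q} (hu : u ∈ U) (ξ : Ed q) :
    Bf (ψ u) (fderiv ℝ ψ u ξ) = 0 := by
  have hd : DifferentiableAt ℝ ψ u :=
    (hψ.differentiableOn (by simp)).differentiableAt (hU.mem_nhds hu)
  have hψ' := hd.hasFDerivAt
  have hc : HasFDerivAt (fun x => Bf (ψ x)) (Bf.comp (fderiv ℝ ψ u)) u :=
    Bf.hasFDerivAt.comp u hψ'
  have hf := hc.clm_apply hψ'
  have hconst : (fun x => Bf (ψ x) (ψ x)) =ᶠ[𝓝 u] fun _ => (1 : ℝ) := by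
    filter_upwards [hU.mem_nhds hu] with x hx using h1 x hx
  have h0 : HasFDerivAt (fun x => Bf (ψ x) (ψ x)) (0 : Ed q →L[ℝ] ℝ) u :=
    (hasFDerivAt_const (1 : ℝ) u).congr_of_eventuallyEq hconst
  have h2 := congrArg (fun L : Ed q →L[ℝ] ℝ => L ξ) (hf.unique h0)
  simp only [ContinuousLinearMap.add_apply, ContinuousLinearMap.comp_apply,
    ContinuousLinearMap.flip_apply, ContinuousLinearMap.zero_apply] at h2
  rw [hsymm (fderiv ℝ ψ u ξ) (ψ u)] at h2
  linarith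

theorem tangent_U (q : ℕ) {ψ : Ed q → EN q} {U : Set (Ed q)}
    (h : IsLocalParam (spherePairProd q) ψ U) {u : Ed q} (hu : u ∈ U) (ξ : Ed q) :
    formU q (ψ u) (fderiv ℝ ψ u ξ) = 0 :=
  tang_aux q (formU q) (formU_comm q) h.1 h.2.1
    (fun _ hx => ((mem_sphere_iff q _).1 (param_mem h hx)).1) hu ξ

theorem tangent_V (q : ℕ) {ψ : Ed q → EN q} {U : Set (Ed q)}
    (h : IsLocalParam (spherePairProd q) ψ U) {u : Ed q} (hu : u ∈ U) (ξ : Ed q) :
    formV q (ψ u) (fderiv ℝ ψ u ξ) = 0 :=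
  tang_aux q (formV q) (formV_comm q) h.1 h.2.1
    (fun _ hx => ((mem_sphere_iff q _).1 (param_mem h hx)).2) hu ξ

end Claimed.Agent.R324
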