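/-
Row 324, module G, leaf Dense (chief helper427): non-polar points are dense in every chart (blueprint G5).
PROOF.  Let `u ∈ U` and suppose `u ∉ closure S`, `S = {x ∈ U | ψ x 3 ∈ (-1,1)}`.  Then there is an open `O`, `u ∈ O ⊆ U`, disjoint from `S`
 (`mem_closure_iff_nhds`/`mem_closure_iff`, intersect with `U`).  For `x ∈ O`: `ψ x ∈ M`, `y := ψ x 3 ∈ [-1,1]` (`height_mem_Icc`) and `y ∉ (-1,1)`, so `y² = 1`;
 since `Σ_{i≥3} (ψ x i)² = 1`, all `ψ x i` with `i.val > 3` vanish.  Hence on `O`: `x ↦ ψ x i` is constant `0` for `i.val > 3`, and `x ↦ (ψ x 3)²` is constant `1`.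
 Differentiating at `u` (`ψ` differentiable at `u`; coordinates via `EuclideanSpace.proj`):  `(fderiv ℝ ψ u ξ) i = 0` for `i.val > 3`, and `2 y (fderiv ℝ ψ u ξ) 3 = 0` with `y ≠ 0`.
 So `fderiv ℝ ψ u` maps `Ed q` (dimension `q+3`) injectively into `{η | η i = 0 for i.val ≥ 3}`, i.e. `ξ ↦ (η 0, η 1, η 2)` is an injective linear map `Ed q → (Fin 3 → ℝ)`:
 contradiction with `LinearMap.finrank_le_finrank_of_injective` (`finrank_euclideanSpace`, `Module.finrank_fin_fun`), as `q + 3 > 3`.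
-/
import Claimed.Agent.R324.Geo.Tangent

set_option autoImplicit false

namespace Claimed.Agent.R324

open Set Filter Topology Claims.C0510
open scoped ContDiff

/-- a polar point of `M`: height `±1`, all other coordinates of the second factor vanish. -/
theorem dense_polar (q : ℕ) {p : EN q} (hp : p ∈ spherePairProd q)
    (hn : ¬ (p (iy q) ∈ Ioo (-1 : ℝ) 1)) :
    p (iy q) ^ 2 = 1 ∧ ∀ i : Fin (3 + (q + 2)), 3 < i.val → p i = 0 := by
  have hI := height_mem_Icc q hp
  have hsq : p (iy q) ^ 2 = 1 := by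
    rcases lt_or_ge (-1 : ℝ) (p (iy q)) with h1 | h1
    · rcases lt_or_ge (p (iy q)) 1 with h2 | h2
      · exact absurd ⟨h1, h2⟩ hn
      · have : p (iy q) = 1 := le_antisymm hI.2 h2
        rw [this]; norm_num
    · have : p (iy q) = -1 := le_antisymm h1 hI.1
      rw [this]; norm_num
  refine ⟨hsq, fun i hi => ?_⟩
  have hsum := hp.2
  have hne : iy q ≠ i := by
    intro hc
    have : (iy q).val = i.val := congrArg Fin.val hc
    simp only [iy] at this
    omega
  have hsub : ({iy q, i} : Finset (Fin (3 + (q + 2))))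
      ⊆ Finset.univ.filter (fun j : Fin (3 + (q + 2)) => 3 ≤ j.val) := by
    intro j hj
    simp only [Finset.mem_insert, Finset.mem_singleton] at hj
    simp only [Finset.mem_filter, Finset.mem_univ, true_and]
    rcases hj with rfl | rfl
    · simp [iy]
    · omega
  have hle := Finset.sum_le_sum_of_subset_of_nonneg (f := fun j => p j ^ 2) hsub
    (fun j _ _ => sq_nonneg (p j))
  rw [Finset.sum_pair hne, hsum, hsq] at hle
  have h0 : p i ^ 2 ≤ 0 := by linarith
  have h1 : p i ^ 2 = 0 := le_antisymm h0 (sq_nonneg _)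
  exact pow_eq_zero_iff (two_ne_zero) |>.1 h1

theorem nonpolar_dense (q : ℕ) (hq : 1 ≤ q) {ψ : Ed q → EN q} {U : Set (Ed q)}
    (h : IsLocalParam (spherePairProd q) ψ U) :
    U ⊆ closure {x | x ∈ U ∧ ψ x (iy q) ∈ Ioo (-1 : ℝ) 1} := by
  intro u hu
  by_contra hc
  have hUn : U ∈ 𝓝 u := h.1.mem_nhds hu
  have hCn : (closure {x | x ∈ U ∧ ψ x (iy q) ∈ Ioo (-1 : ℝ) 1})ᶜ ∈ 𝓝 u :=
    isClosed_closure.isOpen_compl.mem_nhds hc
  have hpt : ∀ᶠ x in 𝓝 u, (ψ x (iy q)) ^ 2 = 1 ∧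
      ∀ i : Fin (3 + (q + 2)), 3 < i.val → ψ x i = 0 := by
    filter_upwards [hUn, hCn] with x hxU hxC
    exact dense_polar q (param_mem h hxU) fun hy => hxC (subset_closure ⟨hxU, hy⟩)
  have hd : DifferentiableAt ℝ ψ u := (h.2.1.contDiffAt hUn).differentiableAt (by simp)
  have hcoord : ∀ i : Fin (3 + (q + 2)), HasFDerivAt (fun x => ψ x i)
      ((EuclideanSpace.proj i : EN q →L[ℝ] ℝ).comp (fderiv ℝ ψ u)) u := by
    intro i
    exact (EuclideanSpace.proj i : EN q →L[ℝ] ℝ).hasFDerivAt.comp u hd.hasFDerivAt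
  have hz : ∀ i : Fin (3 + (q + 2)), 3 < i.val → ∀ ξ, (fderiv ℝ ψ u ξ) i = 0 := by
    intro i hi ξ
    have he : (fun x => ψ x i) =ᶠ[𝓝 u] fun _ => (0 : ℝ) := hpt.mono fun x hx => hx.2 i hi
    have h0 : HasFDerivAt (fun x => ψ x i) (0 : Ed q →L[ℝ] ℝ) u :=
      (hasFDerivAt_const (0 : ℝ) u).congr_of_eventuallyEq he
    have h2 := DFunLike.congr_fun ((hcoord i).unique h0) ξ
    simpa using h2
  have hy : ∀ ξ, (fderiv ℝ ψ u ξ) (iy q) = 0 := by
    intro ξ
    have he : (fun x => (ψ x (iy q)) ^ 2) =ᶠ[𝓝 u] fun _ => (1 : ℝ) := hpt.mono fun x hx => hx.1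
    have h0 : HasFDerivAt (fun x => (ψ x (iy q)) ^ 2) (0 : Ed q →L[ℝ] ℝ) u :=
      (hasFDerivAt_const (1 : ℝ) u).congr_of_eventuallyEq he
    have h2 := DFunLike.congr_fun (((hcoord (iy q)).pow 2).unique h0) ξ
    have h3 : (ψ u (iy q)) ^ 2 = 1 := hpt.self_of_nhds.1
    have h4 : ψ u (iy q) ≠ 0 := by
      intro h5
      rw [h5] at h3
      norm_num at h3
    simpa [h4] using h2
  let L : Ed q →ₗ[ℝ] (Fin 3 → ℝ) :=
    { toFun := fun ξ k => (fderiv ℝ ψ u ξ) ⟨k.val, by omega⟩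
      map_add' := by intro a b; ext k; simp
      map_smul' := by intro c a; ext k; simp }
  have hL : Function.Injective L := by
    intro a b hab
    apply h.2.2.1 u hu
    ext i
    rcases lt_trichotomy i.val 3 with hi | hi | hi
    · exact congrFun hab ⟨i.val, hi⟩
    · have : i = iy q := Fin.ext hi
      rw [this, hy a, hy b]
    · rw [hz i hi a, hz i hi b]
  have hfin := LinearMap.finrank_le_finrank_of_injective hL
  rw [finrank_euclideanSpace, Module.finrank_fin_fun, Fintype.card_fin] at hfin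
  omega

end Claimed.Agent.R324
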