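/-
Row 324, module G, leaf Slice (chief helper427): time slices and time derivatives of a function smooth on `(t₀,T) × ℝ`.
PROOFS.  `S := Ioo t₀ T ×ˢ univ` is open (`isOpen_Ioo.prod isOpen_univ`).
* `slice_contDiff`: `contDiff_iff_contDiffOn_univ`/`ContDiffOn.comp` with `y ↦ (t,y)` (`contDiff_const.prodMk contDiff_id`), which maps `univ` into `S`.
* `slice_hasDerivAt`: `A` is differentiable at `(t,y)` (`hA.differentiableOn`, `DifferentiableOn.differentiableAt` with `S ∈ 𝓝 (t,y)`), compose with `s ↦ (s,y)`;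
  so `fun s => A (s,y)` is differentiable at `t` and `DifferentiableAt.hasDerivAt` gives the statement (`dtOf A t y = deriv (fun s => A (s,y)) t` by `rfl`).
* `dtOf_eq_fderiv`: chain rule (`HasFDerivAt.comp_hasDerivAt`, `HasDerivAt.deriv`).
* `dtOf_continuous`: by `dtOf_eq_fderiv` it is `y ↦ fderiv ℝ A (t,y) (1,0)`; `hA.fderiv_of_isOpen` is `ContDiffOn`, hence continuous on `S`; compose with `y ↦ (t,y)`.
-/
import Claimed.Agent.R324.Geo.Defs

set_option autoImplicit false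

namespace Claimed.Agent.R324

open Set Filter Topology Claims.C0510
open scoped ContDiff

variable {t₀ T : ℝ} {A : ℝ × ℝ → ℝ}

theorem slice_isOpen : IsOpen (Ioo t₀ T ×ˢ (univ : Set ℝ)) := isOpen_Ioo.prod isOpen_univ

theorem slice_mem_nhds {t : ℝ} (ht : t ∈ Ioo t₀ T) (y : ℝ) :
    Ioo t₀ T ×ˢ (univ : Set ℝ) ∈ 𝓝 (t, y) :=
  slice_isOpen.mem_nhds ⟨ht, mem_univ y⟩

theorem slice_differentiableAt (hA : ContDiffOn ℝ ∞ A (Ioo t₀ T ×ˢ univ)) {t : ℝ}
    (ht : t ∈ Ioo t₀ T) (y : ℝ) : DifferentiableAt ℝ A (t, y) :=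
  (hA.differentiableOn (by simp)).differentiableAt (slice_mem_nhds ht y)

theorem slice_hasDerivAt_fderiv (hA : ContDiffOn ℝ ∞ A (Ioo t₀ T ×ˢ univ)) {t : ℝ}
    (ht : t ∈ Ioo t₀ T) (y : ℝ) :
    HasDerivAt (fun s => A (s, y)) (fderiv ℝ A (t, y) (1, 0)) t := by
  have h1 : HasDerivAt (fun s : ℝ => (s, y)) ((1 : ℝ), (0 : ℝ)) t :=
    (hasDerivAt_id t).prodMk (hasDerivAt_const t y)
  exact (slice_differentiableAt hA ht y).hasFDerivAt.comp_hasDerivAt t h1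

theorem slice_contDiff (hA : ContDiffOn ℝ ∞ A (Ioo t₀ T ×ˢ univ)) {t : ℝ} (ht : t ∈ Ioo t₀ T) :
    ContDiff ℝ ∞ (fun y => A (t, y)) := by
  rw [← contDiffOn_univ]
  exact hA.comp (contDiff_const.prodMk contDiff_id).contDiffOn fun y _ => ⟨ht, mem_univ y⟩

theorem slice_hasDerivAt (hA : ContDiffOn ℝ ∞ A (Ioo t₀ T ×ˢ univ)) {t : ℝ} (ht : t ∈ Ioo t₀ T)
    (y : ℝ) : HasDerivAt (fun s => A (s, y)) (dtOf A t y) t :=
  (slice_hasDerivAt_fderiv hA ht y).differentiableAt.hasDerivAt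

theorem dtOf_eq_fderiv (hA : ContDiffOn ℝ ∞ A (Ioo t₀ T ×ˢ univ)) {t : ℝ} (ht : t ∈ Ioo t₀ T)
    (y : ℝ) : dtOf A t y = fderiv ℝ A (t, y) (1, 0) :=
  (slice_hasDerivAt_fderiv hA ht y).deriv

theorem dtOf_continuous (hA : ContDiffOn ℝ ∞ A (Ioo t₀ T ×ˢ univ)) {t : ℝ} (ht : t ∈ Ioo t₀ T) :
    Continuous (dtOf A t) := by
  have h1 : dtOf A t = fun y => fderiv ℝ A (t, y) (1, 0) := funext fun y => dtOf_eq_fderiv hA ht y
  rw [h1]
  have h2 : ContinuousOn (fderiv ℝ A) (Ioo t₀ T ×ˢ univ) :=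
    hA.continuousOn_fderiv_of_isOpen slice_isOpen (by simp)
  have h3 : Continuous fun y : ℝ => fderiv ℝ A (t, y) := by
    rw [← continuousOn_univ]
    exact h2.comp (Continuous.prodMk continuous_const continuous_id).continuousOn
      fun y _ => ⟨ht, mem_univ y⟩
  exact h3.clm_apply continuous_const

end Claimed.Agent.R324
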