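/-
Row 324, module G, leaf FlowCoef (chief helper427): the reduced flow equations in terms of the coefficient functions.
With `X = 1 - y²` (`> 0`), `Ȧ = dtOf A t y` etc. and `a = laOf A B`, `b = lbOf A`, `c = lcOf C`:
   `deriv (fun s => lbOf A s y) t = Ȧ / A`,   `deriv (fun s => lcOf C s y) t = Ċ / C`,   `deriv (fun s => laOf A B s y) t = (Ȧ + X Ḃ)/(A + X B)`
 (`slice_hasDerivAt`, `HasDerivAt.log`, `HasDerivAt.mul_const`, `.div_const`, positivity from `h.posA, h.posE, h.posC` with `Ioo ⊆ Icc`; `HasDerivAt.deriv`).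
 Together with `h.flowA, h.flowB, h.flowC`:   `Ȧ = rfB * A`,  `Ċ = rfC * C`,  `Ȧ + X Ḃ = rfA * (A + X B)`.
 `flow_coef`: `adDiag_adC` on both sides, `unfold adRf`, `split_ifs`, and `laOf_eq_laS` etc. (these are `rfl`), `field_simp`/`ring`-type algebra.
-/
import Claimed.Agent.R324.Geo.Centre
import Claimed.Agent.R324.Geo.Slice

set_option autoImplicit false

namespace Claimed.Agent.R324

open Set Filter Topology Claims.C0510
open scoped ContDiff

variable {q : ℕ} {t₀ T : ℝ} {A B C : ℝ × ℝ → ℝ}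

theorem flow_dtA (h : RedRF q t₀ T A B C) {t : ℝ} (ht : t ∈ Ioo t₀ T) {y : ℝ}
    (hy : y ∈ Ioo (-1 : ℝ) 1) :
    dtOf A t y = rfB q (laOf A B t) (lbOf A t) (lcOf C t) y * A (t, y) := by
  have hy' : y ∈ Icc (-1 : ℝ) 1 := Ioo_subset_Icc_self hy
  have hX : 0 < 1 - y ^ 2 := by nlinarith [hy.1, hy.2]
  have hA := h.posA t ht y hy'
  have hd := slice_hasDerivAt h.smA ht y
  have h1 : HasDerivAt (fun s => lbOf A s y)
      (dtOf A t y * (1 - y ^ 2) / (A (t, y) * (1 - y ^ 2))) t :=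
    (hd.mul_const (1 - y ^ 2)).log (by positivity)
  have h2 := h.flowB t ht y hy
  rw [h1.deriv] at h2
  rw [← h2]
  field_simp

theorem flow_dtC (h : RedRF q t₀ T A B C) {t : ℝ} (ht : t ∈ Ioo t₀ T) {y : ℝ}
    (hy : y ∈ Ioo (-1 : ℝ) 1) :
    dtOf C t y = rfC q (laOf A B t) (lbOf A t) (lcOf C t) y * C (t, y) := by
  have hy' : y ∈ Icc (-1 : ℝ) 1 := Ioo_subset_Icc_self hy
  have hC := h.posC t ht y hy'
  have hd := slice_hasDerivAt h.smC ht y
  have h1 : HasDerivAt (fun s => lcOf C s y) (dtOf C t y / C (t, y)) t := hd.log hC.ne'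
  have h2 := h.flowC t ht y hy
  rw [h1.deriv] at h2
  rw [← h2]
  field_simp

theorem flow_dtE (h : RedRF q t₀ T A B C) {t : ℝ} (ht : t ∈ Ioo t₀ T) {y : ℝ}
    (hy : y ∈ Ioo (-1 : ℝ) 1) :
    dtOf A t y + (1 - y ^ 2) * dtOf B t y =
      rfA q (laOf A B t) (lbOf A t) (lcOf C t) y * (A (t, y) + (1 - y ^ 2) * B (t, y)) := by
  have hy' : y ∈ Icc (-1 : ℝ) 1 := Ioo_subset_Icc_self hy
  have hX : 0 < 1 - y ^ 2 := by nlinarith [hy.1, hy.2]
  have hE := h.posE t ht y hy'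
  have hdA := slice_hasDerivAt h.smA ht y
  have hdB := slice_hasDerivAt h.smB ht y
  have h1 : HasDerivAt (fun s => laOf A B s y)
      (((dtOf A t y + (1 - y ^ 2) * dtOf B t y) / (1 - y ^ 2))
        / ((A (t, y) + (1 - y ^ 2) * B (t, y)) / (1 - y ^ 2))) t :=
    ((hdA.add (hdB.const_mul (1 - y ^ 2))).div_const (1 - y ^ 2)).log (by positivity)
  have h2 := h.flowA t ht y hy
  rw [h1.deriv] at h2
  rw [← h2]
  field_simp

theorem flow_coef (h : RedRF q t₀ T A B C) {t : ℝ} (ht : t ∈ Ioo t₀ T) {y : ℝ}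
    (hy : y ∈ Ioo (-1 : ℝ) 1) (j : Fin (q + 3)) :
    adDiag q (dtOf A t) (dtOf B t) (dtOf C t) (adC q y) j =
      adRf q (fun y => A (t, y)) (fun y => B (t, y)) (fun y => C (t, y)) y j *
        adDiag q (fun y => A (t, y)) (fun y => B (t, y)) (fun y => C (t, y)) (adC q y) j := by
  rw [adDiag_adC, adDiag_adC]
  unfold adRf
  split_ifs with h0 h1
  · have h2 := flow_dtE h ht hy
    rw [laOf_eq_laS, lbOf_eq_lbS, lcOf_eq_lcS] at h2
    rw [h2, mul_div_assoc]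
  · have h2 := flow_dtA h ht hy
    rw [laOf_eq_laS, lbOf_eq_lbS, lcOf_eq_lcS] at h2
    rw [h2, mul_assoc]
  · have h2 := flow_dtC h ht hy
    rw [laOf_eq_laS, lbOf_eq_lbS, lcOf_eq_lcS] at h2
    rw [h2]

end Claimed.Agent.R324
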