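/-
Row 324, module G.  INTERFACE with G34 (adapted charts, diagonal metrics; architect helper821).  Chief of geometry: helper427.
These three statements are all that the assembly uses from G3+G4 of the blueprint.  C1: proved in `R324/Geo/A/*.lean`, C2, C3: in `R324/Geo/D/*.lean` (helper427).
If a statement is false or awkward: msgs row 324 kind=coord to helper427 with the fix.
Definitions (`adW, adC, adDiag, adG, adRf, sZ, sW, ambS`): `R324/Geo/Defs.lean`.
You may import `R324/Geo/Form.lean` (evaluation of the forms), `R324/Geo/Loc.lean`, `R324/Geo/Reg*.lean`.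
-/
import Claimed.Agent.R324.Geo.Defs
import Claimed.Agent.R324.Geo.D.C2
import Claimed.Agent.R324.Geo.D.C3
import Claimed.Agent.R324.Geo.A.Main

set_option autoImplicit false

namespace Claimed.Agent.R324

open Set Claims.C0510
open scoped ContDiff

/-- (C1) the adapted chart `(r,z,w) ↦ (σ_{u₀}(w), (r, sqrt(1-r²) σ_e(z)))` around a non-polar point `p = (u₀, (y₀, sqrt(1-y₀²) e))`.
The formula for the metric holds for ALL coefficient functions (no regularity: `coordMetric` only evaluates the form). -/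
theorem adapted_chart (q : ℕ) (p : EN q) (hp : p ∈ spherePairProd q)
    (hy : p (iy q) ∈ Ioo (-1 : ℝ) 1) :
    ∃ χ : Ed q → EN q, IsLocalParam (spherePairProd q) χ (adW q) ∧ χ (adC q (p (iy q))) = p ∧
      ∀ (A B C : ℝ → ℝ), ∀ x ∈ adW q, coordMetric (ambS q A B C) χ x = adG q A B C x :=
  ac_adapted_chart q p hp hy

/-- (C2) Ricci tensor of the diagonal metric `adG` at the centre `(y,0,0)`. -/
theorem adG_ricci (q : ℕ) (A B C : ℝ → ℝ) (hA : ContDiff ℝ ∞ A) (hB : ContDiff ℝ ∞ B)
    (hC : ContDiff ℝ ∞ C) (y : ℝ) (hy : y ∈ Ioo (-1 : ℝ) 1) (posA : 0 < A y)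
    (posE : 0 < A y + (1 - y ^ 2) * B y) (posC : 0 < C y) :
    ricM (adG q A B C) (adC q y) =
      Matrix.diagonal (fun j => -(1 / 2) * (adRf q A B C y j * adDiag q A B C (adC q y) j)) :=
  dg_adG_ricci q A B C hA hB hC y hy posA posE posC

/-- (C3) lower bound for `|Rm|^2` at the centre by the sectional curvature of the `S^2` fibre. -/
theorem adG_riem (q : ℕ) (A B C : ℝ → ℝ) (hA : ContDiff ℝ ∞ A) (hB : ContDiff ℝ ∞ B)
    (hC : ContDiff ℝ ∞ C) (y : ℝ) (hy : y ∈ Ioo (-1 : ℝ) 1) (posA : 0 < A y)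
    (posE : 0 < A y + (1 - y ^ 2) * B y) (posC : 0 < C y) :
    (kPsi (laS A B) (lcS C) y) ^ 2 ≤ riemannNormSq (adG q A B C) (adC q y) :=
  dg_adG_riem q A B C hA hB hC y hy posA posE posC

end Claimed.Agent.R324
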