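/-
Row 324, module G, leaf RegB (chief helper427): christoffel, riemannCoord, ricciCoord, scalarCoord of a smooth non-degenerate matrix field are smooth.
PROOFS.  Unfold the definitions of Def_0510 (`simp only [christoffel]` / `unfold`): finite sums and products of
 entries of `(G x)⁻¹` (`inv_smoothG`), `pdiff (fun w => G w a b) c x` (`pdiff_contDiffOn hU (hG a b) c`), then for `riemannCoord`
 `pdiff (fun w => christoffel G w l j k) i x` (`pdiff_contDiffOn hU (christoffel_contDiffOn ..) i`).
 Tools: `ContDiffOn.sum`, `ContDiffOn.mul`, `.add`, `.sub`, `contDiffOn_const`.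
-/
import Claimed.Agent.R324.Geo.RegA

set_option autoImplicit false

namespace Claimed.Agent.R324

open Set Filter Topology Claims.C0510
open scoped ContDiff

variable {d : ℕ} {G : EuclideanSpace ℝ (Fin d) → Matrix (Fin d) (Fin d) ℝ}
  {U : Set (EuclideanSpace ℝ (Fin d))}

theorem christoffel_contDiffOn (hU : IsOpen U) (hG : SmoothG G U)
    (hdet : ∀ x ∈ U, IsUnit (G x).det) (k i j : Fin d) :
    ContDiffOn ℝ ∞ (fun x => christoffel G x k i j) U := by
  unfold christoffel
  refine contDiffOn_const.mul (ContDiffOn.sum fun l _ => ?_)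
  refine (inv_smoothG hG hdet k l).mul ?_
  exact ((pdiff_contDiffOn hU (hG j l) i).add (pdiff_contDiffOn hU (hG i l) j)).sub
    (pdiff_contDiffOn hU (hG i j) l)

theorem riemannCoord_contDiffOn (hU : IsOpen U) (hG : SmoothG G U)
    (hdet : ∀ x ∈ U, IsUnit (G x).det) (l i j k : Fin d) :
    ContDiffOn ℝ ∞ (fun x => riemannCoord G x l i j k) U := by
  unfold riemannCoord
  have hC := fun a b c => christoffel_contDiffOn hU hG hdet a b c
  refine ((pdiff_contDiffOn hU (hC l j k) i).sub (pdiff_contDiffOn hU (hC l i k) j)).add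
    (ContDiffOn.sum fun p _ => ?_)
  exact ((hC l i p).mul (hC p j k)).sub ((hC l j p).mul (hC p i k))

theorem ricciCoord_contDiffOn (hU : IsOpen U) (hG : SmoothG G U)
    (hdet : ∀ x ∈ U, IsUnit (G x).det) (j k : Fin d) :
    ContDiffOn ℝ ∞ (fun x => ricciCoord G x j k) U := by
  unfold ricciCoord
  exact ContDiffOn.sum fun i _ => riemannCoord_contDiffOn hU hG hdet i i j k

theorem scalarCoord_contDiffOn (hU : IsOpen U) (hG : SmoothG G U)
    (hdet : ∀ x ∈ U, IsUnit (G x).det) :
    ContDiffOn ℝ ∞ (fun x => scalarCoord G x) U := by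
  unfold scalarCoord
  exact ContDiffOn.sum fun j _ => ContDiffOn.sum fun k _ =>
    (inv_smoothG hG hdet j k).mul (ricciCoord_contDiffOn hU hG hdet j k)

end Claimed.Agent.R324
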