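/-
Row 324, module G, tag Geo/T (G1 + G2 of the blueprint).  ASSEMBLY of the three interface statements of `Geo/IfaceT.lean` (no sorry in this file; leaves are in Geo/T/*.lean).
Architect: helper672.

Chain:  Defs, Basic (evaluation) -> Smooth -> Bridge (riemannCoord = tCurv) -> Koszul -> PullD -> ConnLaw (Christoffel law + its derivative) -> CurvLaw -> RicLaw (+ Trace)
        LocInv -> Trans (transition map),  Coord (coordMetric),  Jac (bridge to jac / pullG).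
-/
import Claimed.Agent.R324.Geo.T.RicLaw
import Claimed.Agent.R324.Geo.T.Trans
import Claimed.Agent.R324.Geo.T.Jac

set_option autoImplicit false

namespace Claimed.Agent.R324

open Set Claims.C0510
open scoped ContDiff Topology

/-- (T1) -/
theorem tT1 {d N : ℕ} {M : Set (tE N)} {ψ₁ ψ₂ : tE d → tE N} {U₁ U₂ : Set (tE d)}
    (h₁ : IsLocalParam M ψ₁ U₁) (h₂ : IsLocalParam M ψ₂ U₂) {u c : tE d}
    (hu : u ∈ U₁) (hc : c ∈ U₂) (huc : ψ₁ u = ψ₂ c) :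
    ∃ (θ : tE d → tE d) (O : Set (tE d)),
      IsOpen O ∧ u ∈ O ∧ O ⊆ U₁ ∧ θ u = c ∧ MapsTo θ O U₂ ∧ ContDiffOn ℝ ∞ θ O ∧
        (∀ x ∈ O, ψ₂ (θ x) = ψ₁ x) ∧ ∀ x ∈ O, IsUnit (jac θ x).det := by
  have hmem : u ∈ tDom ψ₁ U₁ ψ₂ U₂ := ⟨hu, c, hc, huc.symm⟩
  refine ⟨tMap ψ₁ ψ₂ U₂, tDom ψ₁ U₁ ψ₂ U₂, tDom_isOpen h₁ h₂, hmem, tDom_subset,
    tMap_eq h₂ hmem hc huc, tMap_mapsTo, tMap_contDiffOn h₁ h₂, fun x hx => tMap_spec hx,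
    fun x hx => ?_⟩
  exact tjac_isUnit (tθ_hasFDerivAt (tDom_isOpen h₁ h₂) (tMap_contDiffOn h₁ h₂) hx).differentiableAt
    (tMap_fderiv_injective h₁ h₂ hx)

/-- (T2) -/
theorem tT2 {d N : ℕ} (g : tE N → tE N →L[ℝ] tE N →L[ℝ] ℝ) {ψ₁ ψ₂ : tE d → tE N}
    {θ : tE d → tE d} {O U₂ : Set (tE d)} (hO : IsOpen O) (hU₂ : IsOpen U₂)
    (hψ₂ : ContDiffOn ℝ ∞ ψ₂ U₂) (hθ : ContDiffOn ℝ ∞ θ O) (hmaps : MapsTo θ O U₂)
    (hcomp : ∀ x ∈ O, ψ₂ (θ x) = ψ₁ x) :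
    ∀ x ∈ O, coordMetric g ψ₁ x = pullG θ (coordMetric g ψ₂) x := by
  intro x hx
  ext j k
  rw [pullG_apply]
  exact (tPull_coordMetric g hO hU₂ hψ₂ hθ hmaps hcomp).entry hO hθ hx j k

/-- (T3) -/
theorem tT3 {d : ℕ} {θ : tE d → tE d} {G : tMF d} {O V : Set (tE d)} (hO : IsOpen O)
    (hV : IsOpen V) (hθ : ContDiffOn ℝ ∞ θ O) (hmaps : MapsTo θ O V)
    (hJ : ∀ x ∈ O, IsUnit (jac θ x).det)
    (hG : SmoothG G V) (hsymm : ∀ y ∈ V, (G y).IsSymm) (hdet : ∀ y ∈ V, IsUnit (G y).det) :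
    ∀ x ∈ O, ricM (pullG θ G) x = (jac θ x).transpose * ricM G (θ x) * jac θ x := by
  intro x hx
  have rG : tReg G V := ⟨hV, hG, fun y hy i j => ((hsymm y hy).apply i j).symm, hdet⟩
  ext j k
  rw [tcong_apply]
  exact (tPull_pullG hO hθ G).ricci (tReg_pullG hO hθ hmaps hJ rG) rG hθ hmaps hx j k

end Claimed.Agent.R324
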