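/-
Row 324, module G.  INTERFACE with G12 (tensoriality, architect helper672).  Chief of geometry: helper427.
These three statements are all that the assembly uses from G1+G2 of the blueprint.  OWNER of this file: helper672
(prove them in `R324/Geo/T/*.lean`, import here, replace each `sorry` by a one-line `exact`).
If a statement is false or awkward: msgs row 324 kind=coord to helper427 with the fix.
You may import `R324/Geo/Loc.lean` (germ congruence) and `R324/Geo/Reg*.lean` (smoothness of christoffel etc.).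
-/
import Claimed.Agent.R324.Geo.Defs
import Claimed.Agent.R324.Geo.Tensor

set_option autoImplicit false

namespace Claimed.Agent.R324

open Set Claims.C0510
open scoped ContDiff

/-- (T1) transition map between two local parametrisations of the same set. -/
theorem transition_exists {d N : ℕ} {M : Set (EuclideanSpace ℝ (Fin N))}
    {ψ₁ ψ₂ : EuclideanSpace ℝ (Fin d) → EuclideanSpace ℝ (Fin N)}
    {U₁ U₂ : Set (EuclideanSpace ℝ (Fin d))}
    (h₁ : IsLocalParam M ψ₁ U₁) (h₂ : IsLocalParam M ψ₂ U₂) {u c : EuclideanSpace ℝ (Fin d)}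
    (hu : u ∈ U₁) (hc : c ∈ U₂) (huc : ψ₁ u = ψ₂ c) :
    ∃ (θ : EuclideanSpace ℝ (Fin d) → EuclideanSpace ℝ (Fin d))
      (O : Set (EuclideanSpace ℝ (Fin d))),
      IsOpen O ∧ u ∈ O ∧ O ⊆ U₁ ∧ θ u = c ∧ MapsTo θ O U₂ ∧ ContDiffOn ℝ ∞ θ O ∧
        (∀ x ∈ O, ψ₂ (θ x) = ψ₁ x) ∧ ∀ x ∈ O, IsUnit (jac θ x).det :=
  tT1 h₁ h₂ hu hc huc

/-- (T2) the coordinate matrices of ANY ambient form in two charts are related by pull back (chain rule). -/
theorem coordMetric_pull {d N : ℕ}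
    (g : EuclideanSpace ℝ (Fin N) → EuclideanSpace ℝ (Fin N) →L[ℝ] EuclideanSpace ℝ (Fin N) →L[ℝ] ℝ)
    {ψ₁ ψ₂ : EuclideanSpace ℝ (Fin d) → EuclideanSpace ℝ (Fin N)}
    {θ : EuclideanSpace ℝ (Fin d) → EuclideanSpace ℝ (Fin d)}
    {O U₂ : Set (EuclideanSpace ℝ (Fin d))} (hO : IsOpen O) (hU₂ : IsOpen U₂)
    (hψ₂ : ContDiffOn ℝ ∞ ψ₂ U₂) (hθ : ContDiffOn ℝ ∞ θ O) (hmaps : MapsTo θ O U₂)
    (hcomp : ∀ x ∈ O, ψ₂ (θ x) = ψ₁ x) :
    ∀ x ∈ O, coordMetric g ψ₁ x = pullG θ (coordMetric g ψ₂) x :=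
  tT2 g hO hU₂ hψ₂ hθ hmaps hcomp

/-- (T3) tensoriality of the Ricci tensor. -/
theorem ricM_pull {d : ℕ} {θ : EuclideanSpace ℝ (Fin d) → EuclideanSpace ℝ (Fin d)}
    {G : EuclideanSpace ℝ (Fin d) → Matrix (Fin d) (Fin d) ℝ}
    {O V : Set (EuclideanSpace ℝ (Fin d))} (hO : IsOpen O) (hV : IsOpen V)
    (hθ : ContDiffOn ℝ ∞ θ O) (hmaps : MapsTo θ O V) (hJ : ∀ x ∈ O, IsUnit (jac θ x).det)
    (hG : SmoothG G V) (hsymm : ∀ y ∈ V, (G y).IsSymm) (hdet : ∀ y ∈ V, IsUnit (G y).det) :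
    ∀ x ∈ O, ricM (pullG θ G) x = (jac θ x).transpose * ricM G (θ x) * jac θ x :=
  tT3 hO hV hθ hmaps hJ hG hsymm hdet

end Claimed.Agent.R324
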