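/-
Row 324, module G, leaf Point (chief helper427): a point of `S^2 x S^(q+1)` with prescribed height.
PROOF.  `p = e_0 + y e_3 + sqrt(1-y²) e_4` (indices `⟨0,_⟩, ⟨3,_⟩ = iy q, ⟨4,_⟩` of `Fin (3+(q+2))`), e.g.
 `p = WithLp.toLp 2 (fun i => if i.val = 0 then 1 else if i.val = 3 then y else if i.val = 4 then Real.sqrt (1 - y^2) else 0)`.
 Unfold `spherePairProd`; the two filtered sums have exactly one resp. two nonzero terms (`Finset.sum_eq_single`, or `Finset.sum_filter` + `Fin.sum_univ_eq_sum_range`…;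
 a convenient way: `Finset.sum_subset` to the explicit finsets `{⟨0,_⟩}` and `{⟨3,_⟩,⟨4,_⟩}`).  `Real.sq_sqrt` with `0 ≤ 1 - y²`.
-/
import Claimed.Agent.R324.Geo.Defs

set_option autoImplicit false

namespace Claimed.Agent.R324

open Set Filter Topology Claims.C0510
open scoped ContDiff

theorem exists_point (q : ℕ) (y : ℝ) (hy : y ∈ Ioo (-1 : ℝ) 1) :
    ∃ p : EN q, p ∈ spherePairProd q ∧ p (iy q) = y := by
  have h0 : 0 ≤ 1 - y ^ 2 := by nlinarith [hy.1, hy.2]
  let f : Fin (3 + (q + 2)) → ℝ := fun i =>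
    if i.val = 0 then 1 else if i.val = 3 then y else if i.val = 4 then Real.sqrt (1 - y ^ 2) else 0
  have hf : ∀ i, (WithLp.toLp 2 f : EN q) i = f i := fun _ => rfl
  refine ⟨WithLp.toLp 2 f, ⟨?_, ?_⟩, ?_⟩
  · rw [Finset.sum_eq_single (⟨0, by omega⟩ : Fin (3 + (q + 2)))]
    · simp [f]
    · intro b hb hb0
      have hb3 : b.val < 3 := (Finset.mem_filter.mp hb).2
      have e0 : b.val ≠ 0 := fun h => hb0 (Fin.ext h)
      have e3 : b.val ≠ 3 := by omega
      have e4 : b.val ≠ 4 := by omega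
      show f b ^ 2 = 0
      simp only [f, if_neg e0, if_neg e3, if_neg e4]
      norm_num
    · intro h
      exact absurd (Finset.mem_filter.mpr ⟨Finset.mem_univ _, by simp⟩) h
  · have hne : (⟨3, by omega⟩ : Fin (3 + (q + 2))) ≠ ⟨4, by omega⟩ := by
      intro h; simpa using congrArg Fin.val h
    rw [← Finset.sum_subset (s₁ := {(⟨3, by omega⟩ : Fin (3 + (q + 2))), ⟨4, by omega⟩})]
    · rw [Finset.sum_pair hne]
      simp only [f]
      norm_num
      rw [Real.sq_sqrt h0]
      ring
    · intro i hi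
      simp only [Finset.mem_insert, Finset.mem_singleton] at hi
      rcases hi with rfl | rfl <;> simp
    · intro b hb hb'
      have hb3 : 3 ≤ b.val := (Finset.mem_filter.mp hb).2
      simp only [Finset.mem_insert, Finset.mem_singleton, not_or] at hb'
      have e0 : b.val ≠ 0 := by omega
      have e3 : b.val ≠ 3 := fun h => hb'.1 (Fin.ext h)
      have e4 : b.val ≠ 4 := fun h => hb'.2 (Fin.ext h)
      show f b ^ 2 = 0
      simp only [f, if_neg e0, if_neg e3, if_neg e4]
      norm_num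
  · rw [hf]
    simp [f, iy]

end Claimed.Agent.R324
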