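/-
Row 324, module G, leaf PosAlg (chief helper427): positivity of the ambient form on tangent vectors (blueprint G6), pure algebra.
Notation: `y = p 3`, `|ξ_v|² = formV ξ ξ = Σ_{i≥3} ξ_i²`, `formY ξ ξ = ξ_3²`.
PROOFS.
* `formY_le`: split `Σ_{i≥3} = (i = 3) + Σ_{i>3}` (`Finset.sum_erase`/`Finset.add_sum_erase` for the filter set and `iy q`).  With `p' , ξ'` the parts `i > 3`:
   `y² + |p'|² = 1`, `ξ_3 y + <p',ξ'> = 0`, Cauchy-Schwarz `<p',ξ'>² ≤ |p'|² |ξ'|²` (`Finset.sum_mul_sq_le_sq_mul_sq`), so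
   `ξ_3² y² ≤ (1-y²)(|ξ_v|² - ξ_3²)`, i.e. `ξ_3² ≤ (1-y²)|ξ_v|²`  (`nlinarith`/`linarith` after expanding).
* `ambS_pos`: `ambS_apply`.  `formU ξ ξ ≥ 0`, `formV ξ ξ ≥ 0` (sums of squares), and `ξ ≠ 0` gives `formU ξ ξ + formV ξ ξ > 0`
   (some coordinate is nonzero: `ξ i ≠ 0`, `i.val < 3` or `3 ≤ i.val`; `Finset.sum_pos'`/`Finset.single_le_sum`).
   `A |ξ_v|² + B ξ_3² ≥ min(A, A+(1-y²)B) |ξ_v|²`: if `B ≥ 0` drop the term; if `B < 0` use `formY_le`.  (`0 ≤ ξ_3² `.)
   If `formV ξ ξ > 0` the first two terms are `> 0`; otherwise `formV ξ ξ = 0`, then `ξ_3² = 0` by `formY_le` (`1 - y² ≥ 0` not even needed: RHS is 0) and `C formU ξ ξ > 0`.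
-/
import Claimed.Agent.R324.Geo.Tangent

set_option autoImplicit false

namespace Claimed.Agent.R324

open Set Filter Topology Claims.C0510
open scoped ContDiff

theorem formY_le (q : ℕ) {p ξ : EN q} (hp : formV q p p = 1) (hξ : formV q p ξ = 0) :
    formY q ξ ξ ≤ (1 - p (iy q) ^ 2) * formV q ξ ξ := by
  classical
  set T : Finset (Fin (3 + (q + 2))) := Finset.univ.filter (fun i => 3 ≤ i.val) with hT
  have hmem : iy q ∈ T := by
    rw [hT, Finset.mem_filter]
    exact ⟨Finset.mem_univ _, le_refl 3⟩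
  have split : ∀ f : Fin (3 + (q + 2)) → ℝ, ∑ i ∈ T, f i = f (iy q) + ∑ i ∈ T.erase (iy q), f i :=
    fun f => (Finset.add_sum_erase T f hmem).symm
  rw [formV_apply, split] at hp hξ
  rw [formY_apply, formV_apply, split]
  set y := p (iy q) with hy
  set x := ξ (iy q) with hx
  set P := ∑ i ∈ T.erase (iy q), p i * p i with hP
  set X := ∑ i ∈ T.erase (iy q), ξ i * ξ i with hX
  set M := ∑ i ∈ T.erase (iy q), p i * ξ i with hM
  have cs : M ^ 2 ≤ P * X := by
    have := Finset.sum_mul_sq_le_sq_mul_sq (T.erase (iy q)) (fun i => p i) (fun i => ξ i)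
    simpa [hM, hP, hX, sq] using this
  have hXnn : 0 ≤ X := Finset.sum_nonneg fun i _ => mul_self_nonneg _
  have hM' : M = -(y * x) := by linarith
  have hP' : P = 1 - y * y := by linarith
  rw [hM', hP'] at cs
  nlinarith [cs]

theorem ambS_pos (q : ℕ) (A B C : ℝ → ℝ) {p ξ : EN q} (hp : p ∈ spherePairProd q)
    (hV : formV q p ξ = 0) (hξ : ξ ≠ 0) (posA : 0 < A (p (iy q)))
    (posE : 0 < A (p (iy q)) + (1 - p (iy q) ^ 2) * B (p (iy q))) (posC : 0 < C (p (iy q))) :
    0 < ambS q A B C p ξ ξ := by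
  classical
  have hpV : formV q p p = 1 := ((mem_sphere_iff q p).1 hp).2
  have hY := formY_le q hpV hV
  have hUnn : 0 ≤ formU q ξ ξ := by
    rw [formU_apply]
    exact Finset.sum_nonneg fun i _ => mul_self_nonneg _
  have hVnn : 0 ≤ formV q ξ ξ := by
    rw [formV_apply]
    exact Finset.sum_nonneg fun i _ => mul_self_nonneg _
  have hYnn : 0 ≤ formY q ξ ξ := by
    rw [formY_apply]
    exact mul_self_nonneg _
  have hsum : 0 < formU q ξ ξ + formV q ξ ξ := by
    obtain ⟨i, hi⟩ : ∃ i, ξ i ≠ 0 := by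
      by_contra hcon
      push Not at hcon
      apply hξ
      ext i
      simpa using hcon i
    have hpos : 0 < ξ i * ξ i := mul_self_pos.2 hi
    by_cases h3 : i.val < 3
    · have : ξ i * ξ i ≤ formU q ξ ξ := by
        rw [formU_apply]
        exact Finset.single_le_sum (f := fun j => ξ j * ξ j) (fun j _ => mul_self_nonneg _)
          (Finset.mem_filter.2 ⟨Finset.mem_univ _, h3⟩)
      linarith
    · have : ξ i * ξ i ≤ formV q ξ ξ := by
        rw [formV_apply]
        exact Finset.single_le_sum (f := fun j => ξ j * ξ j) (fun j _ => mul_self_nonneg _)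
          (Finset.mem_filter.2 ⟨Finset.mem_univ _, not_lt.1 h3⟩)
      linarith
  rw [ambS_apply]
  set a := A (p (iy q)) with ha
  set b := B (p (iy q)) with hb
  set c := C (p (iy q)) with hc
  set y := p (iy q) with hy
  set V := formV q ξ ξ with hVdef
  set Y := formY q ξ ξ with hYdef
  set U := formU q ξ ξ with hUdef
  have hCU : 0 ≤ c * U := mul_nonneg posC.le hUnn
  rcases hVnn.lt_or_eq with hVpos | hV0
  · have hAB : 0 < a * V + b * Y := by
      by_cases hb0 : 0 ≤ b
      · have h1 : 0 < a * V := mul_pos posA hVpos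
        have h2 : 0 ≤ b * Y := mul_nonneg hb0 hYnn
        linarith
      · have hb1 : b ≤ 0 := (not_le.1 hb0).le
        have h1 : b * ((1 - y ^ 2) * V) ≤ b * Y := mul_le_mul_of_nonpos_left hY hb1
        have h2 : 0 < (a + (1 - y ^ 2) * b) * V := mul_pos posE hVpos
        nlinarith
    linarith
  · have hY0 : Y = 0 := by
      have : Y ≤ 0 := by
        rw [← hV0, mul_zero] at hY
        exact hY
      linarith
    have hUpos : 0 < U := by linarith
    rw [← hV0, hY0, mul_zero, mul_zero]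
    have := mul_pos posC hUpos
    linarith

end Claimed.Agent.R324
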