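/-
Row 324, module G, leaf PosDef (chief helper427): the coordinate matrix is positive definite (blueprint G6).
PROOF.  `Matrix.PosDef.of_dotProduct_mulVec_pos`: Hermitian = symmetric for real matrices (`coordMetric_ambS_isSymm`; `Matrix.IsHermitian` unfolds to `conjTranspose = `,
 `Matrix.conjTranspose_eq_transpose_of_trivial`); for `x ≠ 0`: `star x = x` (`star_trivial`), `coordMetric_quad` (file Form) rewrites `x ⬝ᵥ G *ᵥ x` as
 `ambS .. (ψ u) ξ ξ` with `ξ = fderiv ℝ ψ u (WithLp.toLp 2 x)`; `ξ ≠ 0` because `fderiv ℝ ψ u` is injective (third component of `IsLocalParam`) and `toLp 2 x ≠ 0`;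
 `tangent_V`, `param_mem`, `height_mem_Icc`, `ambS_pos`.
-/
import Claimed.Agent.R324.Geo.PosAlg

set_option autoImplicit false

namespace Claimed.Agent.R324

open Set Filter Topology Claims.C0510
open scoped ContDiff

theorem coordMetric_posDef (q : ℕ) (A B C : ℝ → ℝ) {ψ : Ed q → EN q} {U : Set (Ed q)}
    (h : IsLocalParam (spherePairProd q) ψ U) {u : Ed q} (hu : u ∈ U)
    (posA : ∀ y ∈ Icc (-1 : ℝ) 1, 0 < A y)
    (posE : ∀ y ∈ Icc (-1 : ℝ) 1, 0 < A y + (1 - y ^ 2) * B y)
    (posC : ∀ y ∈ Icc (-1 : ℝ) 1, 0 < C y) :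
    (coordMetric (ambS q A B C) ψ u).PosDef := by
  have hsymm := coordMetric_ambS_isSymm q A B C ψ u
  have hherm : (coordMetric (ambS q A B C) ψ u).IsHermitian := by
    show (coordMetric (ambS q A B C) ψ u).conjTranspose = coordMetric (ambS q A B C) ψ u
    rw [Matrix.conjTranspose_eq_transpose_of_trivial]
    exact hsymm
  refine Matrix.PosDef.of_dotProduct_mulVec_pos hherm fun x hx => ?_
  rw [star_trivial, coordMetric_quad]
  have hp : ψ u ∈ spherePairProd q := param_mem h hu
  have hy := height_mem_Icc q hp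
  have hinj : Function.Injective (fderiv ℝ ψ u) := h.2.2.1 u hu
  have hne : fderiv ℝ ψ u (WithLp.toLp 2 x) ≠ 0 := by
    intro h0
    apply hx
    have h1 : (WithLp.toLp 2 x : Ed q) = 0 := hinj (by rw [h0, map_zero])
    have h2 := congrArg (WithLp.ofLp) h1
    simpa using h2
  exact ambS_pos q A B C hp (tangent_V q h hu _) hne (posA _ hy) (posE _ hy) (posC _ hy)

end Claimed.Agent.R324
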