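/-
Row 324, module G, leaf ScalPull (chief helper427): invariance of the scalar curvature under pull back.
PROOFS.
* `scalarCoord_eq_trace`: unfold `scalarCoord`, `Matrix.trace`, `Matrix.mul_apply`, `Matrix.transpose_apply`, `ricM`; swap the sums (`Finset.sum_comm`).
* `scalarCoord_pull`: `J := jac θ x` is invertible (`hJ`; `Matrix.isUnit_iff_isUnit_det`), `G₀ := G (θ x)` too.  `pullG θ G x = Jᵀ * G₀ * J` (rfl), so
   `(pullG θ G x)⁻¹ = J⁻¹ * G₀⁻¹ * (Jᵀ)⁻¹` (`Matrix.mul_inv_rev`), `ricM (pullG θ G) x = Jᵀ * R * J` (`ricM_pull`, file IfaceT).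
   `tr( (J⁻¹ G₀⁻¹ Jᵀ⁻¹)ᵀ Jᵀ R J ) = tr( J⁻¹ G₀⁻¹ᵀ Jᵀ⁻¹ Jᵀ R J )`  (transpose of a product, `Matrix.transpose_nonsing_inv`)  `= tr( J⁻¹ (G₀⁻¹ᵀ R) J ) = tr(G₀⁻¹ᵀ R)`
   (`Matrix.nonsing_inv_mul`, `Matrix.trace_mul_comm`/`Matrix.trace_mul_cycle`, `Matrix.mul_nonsing_inv`).
-/
import Claimed.Agent.R324.Geo.IfaceT

set_option autoImplicit false

namespace Claimed.Agent.R324

open Set Filter Topology Claims.C0510
open scoped ContDiff

theorem scalarCoord_eq_trace {d : ℕ} (G : EuclideanSpace ℝ (Fin d) → Matrix (Fin d) (Fin d) ℝ)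
    (u : EuclideanSpace ℝ (Fin d)) :
    scalarCoord G u = Matrix.trace (((G u)⁻¹).transpose * ricM G u) := by
  unfold scalarCoord Matrix.trace
  simp only [Matrix.diag_apply, Matrix.mul_apply, Matrix.transpose_apply, ricM, Matrix.of_apply]
  exact Finset.sum_comm

theorem scalarCoord_pull {d : ℕ} {θ : EuclideanSpace ℝ (Fin d) → EuclideanSpace ℝ (Fin d)}
    {G : EuclideanSpace ℝ (Fin d) → Matrix (Fin d) (Fin d) ℝ}
    {O V : Set (EuclideanSpace ℝ (Fin d))} (hO : IsOpen O) (hV : IsOpen V)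
    (hθ : ContDiffOn ℝ ∞ θ O) (hmaps : MapsTo θ O V) (hJ : ∀ x ∈ O, IsUnit (jac θ x).det)
    (hG : SmoothG G V) (hsymm : ∀ y ∈ V, (G y).IsSymm) (hdet : ∀ y ∈ V, IsUnit (G y).det) :
    ∀ x ∈ O, scalarCoord (pullG θ G) x = scalarCoord G (θ x) := by
  intro x hx
  rw [scalarCoord_eq_trace, scalarCoord_eq_trace, ricM_pull hO hV hθ hmaps hJ hG hsymm hdet x hx]
  have hJu : IsUnit (jac θ x).det := hJ x hx
  have hJt : IsUnit ((jac θ x).transpose).det := by rw [Matrix.det_transpose]; exact hJu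
  generalize ricM G (θ x) = R
  have e1 : (pullG θ G x)⁻¹ = (jac θ x)⁻¹ * ((G (θ x))⁻¹ * ((jac θ x).transpose)⁻¹) := by
    show ((jac θ x).transpose * G (θ x) * jac θ x)⁻¹ = _
    rw [Matrix.mul_inv_rev, Matrix.mul_inv_rev]
  rw [e1]
  generalize (G (θ x))⁻¹ = H
  generalize jac θ x = J at hJu hJt ⊢
  rw [Matrix.transpose_mul, Matrix.transpose_mul, Matrix.transpose_nonsing_inv,
    Matrix.transpose_transpose, Matrix.transpose_nonsing_inv J]
  have e2 : J⁻¹ * H.transpose * (J.transpose)⁻¹ * (J.transpose * R * J) =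
      J⁻¹ * (H.transpose * R * J) := by
    calc J⁻¹ * H.transpose * (J.transpose)⁻¹ * (J.transpose * R * J)
        = J⁻¹ * H.transpose * ((J.transpose)⁻¹ * J.transpose) * R * J := by
          simp only [Matrix.mul_assoc]
      _ = J⁻¹ * (H.transpose * R * J) := by
          rw [Matrix.nonsing_inv_mul _ hJt, Matrix.mul_one]; simp only [Matrix.mul_assoc]
  rw [e2, Matrix.trace_mul_comm, Matrix.mul_assoc, Matrix.mul_nonsing_inv _ hJu, Matrix.mul_one]

end Claimed.Agent.R324
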