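/-
Row 324, module G, leaf ScalC (chief helper427): scalar curvature at the centre of the adapted chart.
PROOF.  `scalarCoord_eq_trace`; `adG q A B C (adC q y) = diagonal D`, `D j = adDiag .. j > 0` (`adDiag_adC`, positivity, `1 - y² > 0`), `Matrix.inv_diagonal`/`Matrix.diagonal` inverse
 (`(diagonal D)⁻¹ = diagonal (D⁻¹)`: `Matrix.inv_diagonal` + `Ring.inverse` of a unit function, or `Matrix.inv_eq_right_inv` with `Matrix.diagonal_mul_diagonal`),
 `Matrix.diagonal_transpose`, `adG_ricci` (file IfaceC), `Matrix.diagonal_mul_diagonal`, `Matrix.trace_diagonal`: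
   `Σ_j D_j⁻¹ * (-(1/2) * (adRf j * D_j)) = -(1/2) Σ_j adRf j = -(rfA + q rfB + 2 rfC)/2`   (`sum_classes`, `unfold adRf scalRed`).
-/
import Claimed.Agent.R324.Geo.IfaceC
import Claimed.Agent.R324.Geo.Centre
import Claimed.Agent.R324.Geo.ScalPull

set_option autoImplicit false

namespace Claimed.Agent.R324

open Set Filter Topology Claims.C0510
open scoped ContDiff

theorem adG_scalar (q : ℕ) (A B C : ℝ → ℝ) (hA : ContDiff ℝ ∞ A) (hB : ContDiff ℝ ∞ B)
    (hC : ContDiff ℝ ∞ C) (y : ℝ) (hy : y ∈ Ioo (-1 : ℝ) 1) (posA : 0 < A y)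
    (posE : 0 < A y + (1 - y ^ 2) * B y) (posC : 0 < C y) :
    scalarCoord (adG q A B C) (adC q y) = scalRed q (laS A B) (lbS A) (lcS C) y := by
  have hX : 0 < 1 - y ^ 2 := by nlinarith [hy.1, hy.2]
  have hD : ∀ j, adDiag q A B C (adC q y) j ≠ 0 := by
    intro j
    rw [adDiag_adC]
    split_ifs
    · exact (div_pos posE hX).ne'
    · exact (mul_pos posA hX).ne'
    · exact posC.ne'
  have hinv : (adG q A B C (adC q y))⁻¹
      = Matrix.diagonal (fun j => (adDiag q A B C (adC q y) j)⁻¹) := by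
    refine Matrix.inv_eq_right_inv ?_
    unfold adG
    rw [Matrix.diagonal_mul_diagonal, ← Matrix.diagonal_one]
    congr 1
    funext j
    exact mul_inv_cancel₀ (hD j)
  rw [scalarCoord_eq_trace, hinv, Matrix.diagonal_transpose,
    adG_ricci q A B C hA hB hC y hy posA posE posC, Matrix.diagonal_mul_diagonal,
    Matrix.trace_diagonal]
  have h1 : ∀ j, (adDiag q A B C (adC q y) j)⁻¹
      * (-(1 / 2) * (adRf q A B C y j * adDiag q A B C (adC q y) j))
      = -(1 / 2) * adRf q A B C y j := by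
    intro j
    field_simp [hD j]
  simp only [h1]
  rw [← Finset.mul_sum]
  unfold adRf
  rw [sum_classes]
  unfold scalRed
  ring

end Claimed.Agent.R324
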