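/-
Row 324, module G, assembly RFnp (helper427): the flow equation and the scalar curvature in an arbitrary chart at a NON-POLAR point.
Adapted chart (IfaceC) + transition map, pull back, tensoriality of Ricci (IfaceT) + reduced flow equations (FlowCoef).  No sorry in this file.
-/
import Claimed.Agent.R324.Geo.IfaceT
import Claimed.Agent.R324.Geo.IfaceC
import Claimed.Agent.R324.Geo.Loc
import Claimed.Agent.R324.Geo.ChartSm
import Claimed.Agent.R324.Geo.PosDef
import Claimed.Agent.R324.Geo.FlowCoef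
import Claimed.Agent.R324.Geo.ScalC

set_option autoImplicit false

namespace Claimed.Agent.R324

open Set Filter Topology Claims.C0510
open scoped ContDiff

/-- adapted chart and transition map at a non-polar point of an arbitrary chart. -/
theorem nonpolar_setup (q : ℕ) {ψ : Ed q → EN q} {U : Set (Ed q)}
    (hψ : IsLocalParam (spherePairProd q) ψ U) {u : Ed q} (hu : u ∈ U)
    (hy : ψ u (iy q) ∈ Ioo (-1 : ℝ) 1) :
    ∃ (χ : Ed q → EN q) (θ : Ed q → Ed q) (O : Set (Ed q)),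
      IsLocalParam (spherePairProd q) χ (adW q) ∧
      (∀ (A B C : ℝ → ℝ), ∀ x ∈ adW q, coordMetric (ambS q A B C) χ x = adG q A B C x) ∧
      IsOpen O ∧ u ∈ O ∧ θ u = adC q (ψ u (iy q)) ∧ MapsTo θ O (adW q) ∧ ContDiffOn ℝ ∞ θ O ∧
      (∀ x ∈ O, IsUnit (jac θ x).det) ∧
      ∀ (g : EN q → EN q →L[ℝ] EN q →L[ℝ] ℝ), ∀ x ∈ O,
        coordMetric g ψ x = pullG θ (coordMetric g χ) x := by
  obtain ⟨χ, hχ, hχc, hform⟩ := adapted_chart q (ψ u) (param_mem hψ hu) hy
  obtain ⟨θ, O, hO, huO, -, hθu, hmaps, hθ, hcomp, hJ⟩ :=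
    transition_exists hψ hχ hu (adC_mem q hy) hχc.symm
  exact ⟨χ, θ, O, hχ, hform, hO, huO, hθu, hmaps, hθ, hJ, fun g =>
    coordMetric_pull g hO (adW_isOpen q) hχ.2.1 hθ hmaps hcomp⟩

section
variable {q : ℕ} {t₀ T : ℝ} {A B C : ℝ × ℝ → ℝ}

/-- regularity and non-degeneracy of the metric in any chart. -/
theorem chart_regular (h : RedMetric t₀ T A B C) {t : ℝ} (ht : t ∈ Ioo t₀ T) {ψ : Ed q → EN q}
    {U : Set (Ed q)} (hψ : IsLocalParam (spherePairProd q) ψ U) :
    SmoothG (coordMetric (amb q A B C t) ψ) U ∧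
      (∀ x ∈ U, (coordMetric (amb q A B C t) ψ x).PosDef) ∧
      (∀ x ∈ U, (coordMetric (amb q A B C t) ψ x).IsSymm) ∧
      ∀ x ∈ U, IsUnit (coordMetric (amb q A B C t) ψ x).det := by
  have hpd : ∀ x ∈ U, (coordMetric (amb q A B C t) ψ x).PosDef := fun x hx =>
    coordMetric_posDef q _ _ _ hψ hx (h.posA t ht) (h.posE t ht) (h.posC t ht)
  refine ⟨coordMetric_smoothG q (slice_contDiff h.smA ht) (slice_contDiff h.smB ht)
    (slice_contDiff h.smC ht) hψ.1 hψ.2.1, hpd, fun x _ => coordMetric_ambS_isSymm q _ _ _ ψ x,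
    fun x hx => (Matrix.isUnit_iff_isUnit_det _).1 (hpd x hx).isUnit⟩

theorem rf_nonpolar (h : RedRF q t₀ T A B C) {t : ℝ} (ht : t ∈ Ioo t₀ T) {ψ : Ed q → EN q}
    {U : Set (Ed q)} (hψ : IsLocalParam (spherePairProd q) ψ U) {u : Ed q} (hu : u ∈ U)
    (hy : ψ u (iy q) ∈ Ioo (-1 : ℝ) 1) :
    coordMetric (ambDot q A B C t) ψ u = (-2 : ℝ) • ricM (coordMetric (amb q A B C t) ψ) u := by
  obtain ⟨χ, θ, O, hχ, hform, hO, huO, hθu, hmaps, hθ, hJ, hpull⟩ := nonpolar_setup q hψ hu hy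
  obtain ⟨hsm, -, hsymm, hdet⟩ := chart_regular h.toRedMetric ht hχ
  have hyI : ψ u (iy q) ∈ Icc (-1 : ℝ) 1 := Ioo_subset_Icc_self hy
  have R1 : ricM (coordMetric (amb q A B C t) ψ) u =
      ricM (pullG θ (coordMetric (amb q A B C t) χ)) u :=
    ricM_congr (eventuallyEq_of_eqOn_open hO huO (hpull _))
  have R2 := ricM_pull hO (adW_isOpen q) hθ hmaps hJ hsm hsymm hdet u huO
  have R3 : ricM (coordMetric (amb q A B C t) χ) (θ u) =
      ricM (adG q (fun y => A (t, y)) (fun y => B (t, y)) (fun y => C (t, y)))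
        (adC q (ψ u (iy q))) := by
    rw [hθu]
    exact ricM_congr (eventuallyEq_of_eqOn_open (adW_isOpen q) (adC_mem q hy) (hform _ _ _))
  have R4 := adG_ricci q (fun y => A (t, y)) (fun y => B (t, y)) (fun y => C (t, y))
    (slice_contDiff h.smA ht) (slice_contDiff h.smB ht) (slice_contDiff h.smC ht) _ hy
    (h.posA t ht _ hyI) (h.posE t ht _ hyI) (h.posC t ht _ hyI)
  have L1 : coordMetric (ambDot q A B C t) ψ u =
      (jac θ u).transpose * coordMetric (ambDot q A B C t) χ (θ u) * jac θ u := hpull _ u huO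
  have L2 : coordMetric (ambDot q A B C t) χ (θ u) =
      Matrix.diagonal (fun j =>
        adRf q (fun y => A (t, y)) (fun y => B (t, y)) (fun y => C (t, y)) (ψ u (iy q)) j *
        adDiag q (fun y => A (t, y)) (fun y => B (t, y)) (fun y => C (t, y))
          (adC q (ψ u (iy q))) j) := by
    rw [hθu]
    have := hform (dtOf A t) (dtOf B t) (dtOf C t) _ (adC_mem q hy)
    rw [ambDot, this, adG]
    congr 1
    funext j
    exact flow_coef h ht hy j
  have D : ∀ f : Fin (q + 3) → ℝ, Matrix.diagonal (fun j => -(1 / 2) * f j) =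
      (-(1 / 2) : ℝ) • Matrix.diagonal f := by
    intro f
    ext i j
    by_cases hij : i = j
    · subst hij
      simp
    · simp [Matrix.diagonal_apply_ne _ hij]
  rw [L1, L2, R1, R2, R3, R4, D, Matrix.mul_smul, Matrix.smul_mul, smul_smul]
  norm_num

theorem scal_nonpolar (h : RedRF q t₀ T A B C) {t : ℝ} (ht : t ∈ Ioo t₀ T) {ψ : Ed q → EN q}
    {U : Set (Ed q)} (hψ : IsLocalParam (spherePairProd q) ψ U) {u : Ed q} (hu : u ∈ U)
    (hy : ψ u (iy q) ∈ Ioo (-1 : ℝ) 1) :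
    scalarCoord (coordMetric (amb q A B C t) ψ) u =
      scalRed q (laOf A B t) (lbOf A t) (lcOf C t) (ψ u (iy q)) := by
  obtain ⟨χ, θ, O, hχ, hform, hO, huO, hθu, hmaps, hθ, hJ, hpull⟩ := nonpolar_setup q hψ hu hy
  obtain ⟨hsm, -, hsymm, hdet⟩ := chart_regular h.toRedMetric ht hχ
  have hyI : ψ u (iy q) ∈ Icc (-1 : ℝ) 1 := Ioo_subset_Icc_self hy
  have R1 : scalarCoord (coordMetric (amb q A B C t) ψ) u =
      scalarCoord (pullG θ (coordMetric (amb q A B C t) χ)) u :=
    scalarCoord_congr (eventuallyEq_of_eqOn_open hO huO (hpull _))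
  have R2 := scalarCoord_pull hO (adW_isOpen q) hθ hmaps hJ hsm hsymm hdet u huO
  have R3 : scalarCoord (coordMetric (amb q A B C t) χ) (θ u) =
      scalarCoord (adG q (fun y => A (t, y)) (fun y => B (t, y)) (fun y => C (t, y)))
        (adC q (ψ u (iy q))) := by
    rw [hθu]
    exact scalarCoord_congr (eventuallyEq_of_eqOn_open (adW_isOpen q) (adC_mem q hy) (hform _ _ _))
  have R4 := adG_scalar q (fun y => A (t, y)) (fun y => B (t, y)) (fun y => C (t, y))
    (slice_contDiff h.smA ht) (slice_contDiff h.smB ht) (slice_contDiff h.smC ht) _ hy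
    (h.posA t ht _ hyI) (h.posE t ht _ hyI) (h.posC t ht _ hyI)
  rw [R1, R2, R3, R4]
  rfl

end

end Claimed.Agent.R324
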