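/-
Row 324, module G, assembly RFall (helper427): flow equation and scalar curvature bound at ALL points of an arbitrary chart
(non-polar points are dense, both sides are continuous).  Blow-up chart.  No sorry in this file.
-/
import Claimed.Agent.R324.Geo.RFnp
import Claimed.Agent.R324.Geo.RegB
import Claimed.Agent.R324.Geo.Dense
import Claimed.Agent.R324.Geo.Point

set_option autoImplicit false

namespace Claimed.Agent.R324

open Set Filter Topology Claims.C0510
open scoped ContDiff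

variable {q : ℕ} {t₀ T : ℝ} {A B C : ℝ × ℝ → ℝ}

theorem rf_all (hq : 1 ≤ q) (h : RedRF q t₀ T A B C) {t : ℝ} (ht : t ∈ Ioo t₀ T)
    {ψ : Ed q → EN q} {U : Set (Ed q)} (hψ : IsLocalParam (spherePairProd q) ψ U) {u : Ed q}
    (hu : u ∈ U) :
    coordMetric (ambDot q A B C t) ψ u = (-2 : ℝ) • ricM (coordMetric (amb q A B C t) ψ) u := by
  obtain ⟨hsm, -, -, hdet⟩ := chart_regular h.toRedMetric ht hψ
  ext i j
  have hE : EqOn (fun x => coordMetric (ambDot q A B C t) ψ x i j)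
      (fun x => ((-2 : ℝ) • ricM (coordMetric (amb q A B C t) ψ) x) i j)
      {x | x ∈ U ∧ ψ x (iy q) ∈ Ioo (-1 : ℝ) 1} := by
    intro x hx
    simp only
    rw [rf_nonpolar h ht hψ hx.1 hx.2]
  have hc1 : ContinuousOn (fun x => coordMetric (ambDot q A B C t) ψ x i j) U :=
    coordMetric_continuousOn q (dtOf_continuous h.smA ht) (dtOf_continuous h.smB ht)
      (dtOf_continuous h.smC ht) hψ.1 hψ.2.1 i j
  have hc2 : ContinuousOn
      (fun x => ((-2 : ℝ) • ricM (coordMetric (amb q A B C t) ψ) x) i j) U := by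
    have h3 := (ricciCoord_contDiffOn hψ.1 hsm hdet i j).continuousOn
    have h4 : (fun x => ((-2 : ℝ) • ricM (coordMetric (amb q A B C t) ψ) x) i j) =
        fun x => (-2 : ℝ) * ricciCoord (coordMetric (amb q A B C t) ψ) x i j := by
      funext x
      simp [ricM]
    rw [h4]
    exact continuousOn_const.mul h3
  exact hE.of_subset_closure hc1 hc2 (fun x hx => hx.1) (nonpolar_dense q hq hψ) hu

theorem scal_all (hq : 1 ≤ q) (h : RedRF q t₀ T A B C) {C₀ : ℝ}
    (hR : ∀ t ∈ Ioo t₀ T, ∀ y ∈ Ioo (-1 : ℝ) 1,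
      |scalRed q (laOf A B t) (lbOf A t) (lcOf C t) y| ≤ C₀)
    {t : ℝ} (ht : t ∈ Ioo t₀ T) {ψ : Ed q → EN q} {U : Set (Ed q)}
    (hψ : IsLocalParam (spherePairProd q) ψ U) {u : Ed q} (hu : u ∈ U) :
    |scalarCoord (coordMetric (amb q A B C t) ψ) u| ≤ C₀ := by
  obtain ⟨hsm, -, -, hdet⟩ := chart_regular h.toRedMetric ht hψ
  have hc := (scalarCoord_contDiffOn hψ.1 hsm hdet).continuousOn
  have hcu : ContinuousAt (fun x => scalarCoord (coordMetric (amb q A B C t) ψ) x) u :=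
    hc.continuousAt (hψ.1.mem_nhds hu)
  have hmem := nonpolar_dense q hq hψ hu
  have h1 := mem_closure_image hcu hmem
  have hsub : (fun x => scalarCoord (coordMetric (amb q A B C t) ψ) x) ''
      {x | x ∈ U ∧ ψ x (iy q) ∈ Ioo (-1 : ℝ) 1} ⊆ Icc (-C₀) C₀ := by
    rintro _ ⟨x, hx, rfl⟩
    simp only
    rw [scal_nonpolar h ht hψ hx.1 hx.2]
    exact abs_le.1 (hR t ht _ hx.2)
  exact abs_le.2 (closure_minimal hsub isClosed_Icc h1)

theorem blow_chart (h : RedRF q t₀ T A B C) {t : ℝ} (ht : t ∈ Ioo t₀ T) {y : ℝ}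
    (hy : y ∈ Ioo (-1 : ℝ) 1) :
    ∃ (ψ : Ed q → EN q) (U : Set (Ed q)) (u : Ed q), IsLocalParam (spherePairProd q) ψ U ∧ u ∈ U ∧
      (kPsi (laOf A B t) (lcOf C t) y) ^ 2 ≤ riemannNormSq (coordMetric (amb q A B C t) ψ) u := by
  obtain ⟨p, hp, rfl⟩ := exists_point q y hy
  obtain ⟨χ, hχ, -, hform⟩ := adapted_chart q p hp hy
  have hyI : p (iy q) ∈ Icc (-1 : ℝ) 1 := Ioo_subset_Icc_self hy
  refine ⟨χ, adW q, adC q (p (iy q)), hχ, adC_mem q hy, ?_⟩
  have h1 : riemannNormSq (coordMetric (amb q A B C t) χ) (adC q (p (iy q))) =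
      riemannNormSq (adG q (fun y => A (t, y)) (fun y => B (t, y)) (fun y => C (t, y)))
        (adC q (p (iy q))) :=
    riemannNormSq_congr (eventuallyEq_of_eqOn_open (adW_isOpen q) (adC_mem q hy) (hform _ _ _))
  rw [h1]
  exact adG_riem q (fun y => A (t, y)) (fun y => B (t, y)) (fun y => C (t, y))
    (slice_contDiff h.smA ht) (slice_contDiff h.smB ht) (slice_contDiff h.smC ht) _ hy
    (h.posA t ht _ hyI) (h.posE t ht _ hyI) (h.posC t ht _ hyI)

end Claimed.Agent.R324
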