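/-
Row 324, module G, leaf Time (chief helper427): time cut-off and joint smoothness of the ambient form (blueprint G0).
PROOFS.
* `time_cutoff`: copy of `Claimed.Agent.R325.Geo.exists_time_cutoff` (R325/Pk02.lean, section GeoTime): `θ s = s * Real.smoothTransition ((s + 2δ)/δ)`.
* `amb_contDiffOn`: `amb q A B C (θ s) p = A (θ s, p 3) • formV q + B (θ s, p 3) • formY q + C (θ s, p 3) • formU q` (unfold `amb ambS`).
  The map `(s,p) ↦ (θ s, p 3)` is smooth (`hθ.comp contDiff_fst`, `EuclideanSpace.proj (iy q)` composed with `contDiff_snd`, `ContDiff.prodMk`) and maps `Ioo a b ×ˢ univ` into `Ioo t₀ T ×ˢ univ`;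
  `ContDiffOn.comp`, `ContDiffOn.smul contDiffOn_const`, `.add`.
-/
import Claimed.Agent.R324.Geo.Defs

set_option autoImplicit false

namespace Claimed.Agent.R324

open Set Filter Topology Claims.C0510
open scoped ContDiff

theorem time_cutoff {δ : ℝ} (hδ : 0 < δ) :
    ∃ θ : ℝ → ℝ, ContDiff ℝ ∞ θ ∧ (∀ s, -δ ≤ s → θ s = s) ∧
      ∀ s, s ≤ -δ → θ s ∈ Icc (-(2 * δ)) 0 := by
  refine ⟨fun s => s * Real.smoothTransition ((s + 2 * δ) / δ), ?_, ?_, ?_⟩
  · exact contDiff_id.mul (Real.smoothTransition.contDiff.comp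
      ((contDiff_id.add contDiff_const).div_const δ))
  · intro s hs
    have h1 : 1 ≤ (s + 2 * δ) / δ := by
      rw [le_div_iff₀ hδ]; linarith
    simp only [Real.smoothTransition.one_of_one_le h1, mul_one]
  · intro s hs
    have hs0 : s ≤ 0 := by linarith
    have h0 := Real.smoothTransition.nonneg ((s + 2 * δ) / δ)
    have h1 := Real.smoothTransition.le_one ((s + 2 * δ) / δ)
    by_cases h2 : s ≤ -(2 * δ)
    · have h3 : (s + 2 * δ) / δ ≤ 0 := div_nonpos_of_nonpos_of_nonneg (by linarith) hδ.le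
      simp only [Real.smoothTransition.zero_of_nonpos h3, mul_zero]
      exact ⟨by linarith, le_refl _⟩
    · have h2 := not_le.mp h2
      constructor
      · nlinarith
      · exact mul_nonpos_of_nonpos_of_nonneg hs0 h0

theorem time_coef_contDiffOn (q : ℕ) {t₀ T : ℝ} {A : ℝ × ℝ → ℝ}
    (hA : ContDiffOn ℝ ∞ A (Ioo t₀ T ×ˢ univ))
    {θ : ℝ → ℝ} (hθ : ContDiff ℝ ∞ θ) {a b : ℝ} (hmaps : ∀ s ∈ Ioo a b, θ s ∈ Ioo t₀ T) :
    ContDiffOn ℝ ∞ (fun p : ℝ × EN q => A (θ p.1, p.2 (iy q))) (Ioo a b ×ˢ univ) := by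
  have h1 : ContDiff ℝ ∞ (fun p : ℝ × EN q => (θ p.1, p.2 (iy q))) := by
    apply ContDiff.prodMk (hθ.comp contDiff_fst)
    exact (EuclideanSpace.proj (iy q) : EN q →L[ℝ] ℝ).contDiff.comp contDiff_snd
  refine hA.comp h1.contDiffOn ?_
  rintro ⟨s, p⟩ ⟨hs, -⟩
  exact ⟨hmaps s hs, mem_univ _⟩

theorem time_gen_smul {V W : Type} [NormedAddCommGroup V] [NormedSpace ℝ V] [NormedAddCommGroup W]
    [NormedSpace ℝ W] {f : V → ℝ} {S : Set V} (hf : ContDiffOn ℝ ∞ f S) (Φ : W) :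
    ContDiffOn ℝ ∞ (fun p => f p • Φ) S := hf.smul contDiffOn_const

theorem time_smul_contDiffOn (q : ℕ) {f : ℝ × EN q → ℝ} {S : Set (ℝ × EN q)}
    (hf : ContDiffOn ℝ ∞ f S) (Φ : EN q →L[ℝ] EN q →L[ℝ] ℝ) :
    ContDiffOn ℝ ∞ (fun p => f p • Φ) S := time_gen_smul hf Φ

theorem amb_contDiffOn (q : ℕ) {t₀ T : ℝ} {A B C : ℝ × ℝ → ℝ} (h : RedMetric t₀ T A B C)
    {θ : ℝ → ℝ} (hθ : ContDiff ℝ ∞ θ) {a b : ℝ} (hmaps : ∀ s ∈ Ioo a b, θ s ∈ Ioo t₀ T) :
    ContDiffOn ℝ ∞ (fun p : ℝ × EN q => amb q A B C (θ p.1) p.2) (Ioo a b ×ˢ univ) := by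
  unfold amb ambS
  exact ((time_smul_contDiffOn q (time_coef_contDiffOn q h.smA hθ hmaps) (formV q)).add
    (time_smul_contDiffOn q (time_coef_contDiffOn q h.smB hθ hmaps) (formY q))).add
    (time_smul_contDiffOn q (time_coef_contDiffOn q h.smC hθ hmaps) (formU q))

end Claimed.Agent.R324
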