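/-
Row 324, module G, leaf TimeDer (chief helper427): time derivative of the coordinate matrix.
PROOF.  By `coordMetric_ambS_apply` (`amb q A B C s = ambS q (fun y => A (s,y)) ..` by `rfl`/`unfold amb`) the function of `s` is
   `A (s, y) * c₁ + B (s, y) * c₂ + C (s, y) * c₃` with `y = ψ u (iy q)` and constants `c₁ c₂ c₃`;
 use `slice_hasDerivAt` three times, `HasDerivAt.mul_const`, `.add`; the value is `coordMetric_ambS_apply` for `ambDot` (`unfold ambDot`).
-/
import Claimed.Agent.R324.Geo.Form
import Claimed.Agent.R324.Geo.Slice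

set_option autoImplicit false

namespace Claimed.Agent.R324

open Set Filter Topology Claims.C0510
open scoped ContDiff

theorem coordMetric_hasDerivAt (q : ℕ) {t₀ T : ℝ} {A B C : ℝ × ℝ → ℝ} (h : RedMetric t₀ T A B C)
    {t : ℝ} (ht : t ∈ Ioo t₀ T) (ψ : Ed q → EN q) (u : Ed q) (i j : Fin (q + 3)) :
    HasDerivAt (fun s => coordMetric (amb q A B C s) ψ u i j)
      (coordMetric (ambDot q A B C t) ψ u i j) t := by
  have h1 : (fun s => coordMetric (amb q A B C s) ψ u i j) = fun s =>
      A (s, ψ u (iy q)) * formV q (fderiv ℝ ψ u (EuclideanSpace.single i 1))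
          (fderiv ℝ ψ u (EuclideanSpace.single j 1))
        + B (s, ψ u (iy q)) * formY q (fderiv ℝ ψ u (EuclideanSpace.single i 1))
          (fderiv ℝ ψ u (EuclideanSpace.single j 1))
        + C (s, ψ u (iy q)) * formU q (fderiv ℝ ψ u (EuclideanSpace.single i 1))
          (fderiv ℝ ψ u (EuclideanSpace.single j 1)) := by
    funext s
    unfold amb
    rw [coordMetric_ambS_apply]
  rw [h1]
  unfold ambDot
  rw [coordMetric_ambS_apply]
  exact (((slice_hasDerivAt h.smA ht _).mul_const _).add
    ((slice_hasDerivAt h.smB ht _).mul_const _)).add ((slice_hasDerivAt h.smC ht _).mul_const _)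

end Claimed.Agent.R324
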