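/-
Row 324, module G (geometry), FINAL ASSEMBLY (helper427).  No sorry in this file.

DESIGN OF THE CHAIN (all files in `R324/Geo/`):
  Defs      shared definitions                                Form      evaluation of the forms (done)
  IfaceT    T1 transition maps, T2 pull back of coordMetric, T3 tensoriality of Ricci      (G12, helper672, files Geo/T/*)
  IfaceC    C1 adapted chart, C2 Ricci of the diagonal metric at the centre, C3 |Rm|² ≥ kPsi²  (G34, helper821, files Geo/C/*)
  Loc       germ congruence           RegA, RegB  smoothness of christoffel … scalarCoord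
  ChartSm   coordMetric smooth        Slice, TimeDer   time slices, d/dt of coordMetric
  Tangent, PosAlg, PosDef   positive definiteness (G6)          Dense   non-polar points are dense
  Centre, FlowCoef   reduced flow ⇒ d/dt of the diagonal        ScalPull, ScalC   scalar curvature (invariance, value at the centre)
  Time      time cut-off, joint smoothness (G0)                 Point   a point with given height
  RFnp      flow equation + scalar curvature at non-polar points of any chart (assembly, done)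
  RFall     the same at all points (density + continuity), blow-up chart (assembly, done)
  Main      this file.
-/
import Claimed.Agent.R324.Geo.RFall
import Claimed.Agent.R324.Geo.TimeDer
import Claimed.Agent.R324.Geo.Time

set_option autoImplicit false

namespace Claimed.Agent.R324

open Set Filter Topology Claims.C0510
open scoped ContDiff

theorem geometry_main (q : ℕ) (hq : 2 ≤ q) (t₀ T : ℝ) (A B C : ℝ × ℝ → ℝ)
    (h : RedRF q t₀ T A B C) (hR : ScalBdd q t₀ T A B C) (hK : CurvBlow t₀ T A B C) :
    ∃ T : ℝ, 0 < T ∧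
      ∃ g : ℝ → EuclideanSpace ℝ (Fin (3 + (q + 2))) →
          EuclideanSpace ℝ (Fin (3 + (q + 2))) →L[ℝ] EuclideanSpace ℝ (Fin (3 + (q + 2))) →L[ℝ] ℝ,
        IsRicciFlow (q + 3) (spherePairProd q) g T ∧
        (∃ C : ℝ, ∀ (ψ : EuclideanSpace ℝ (Fin (q + 3)) → EuclideanSpace ℝ (Fin (3 + (q + 2))))
          (U : Set (EuclideanSpace ℝ (Fin (q + 3)))), IsLocalParam (spherePairProd q) ψ U →
            ∀ t ∈ Set.Ico 0 T, ∀ u ∈ U, |scalarCoord (coordMetric (g t) ψ) u| ≤ C) ∧
        ∀ C : ℝ, ∃ δ : ℝ, 0 < δ ∧ ∀ t ∈ Set.Ioo (T - δ) T,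
          ∃ (ψ : EuclideanSpace ℝ (Fin (q + 3)) → EuclideanSpace ℝ (Fin (3 + (q + 2))))
            (U : Set (EuclideanSpace ℝ (Fin (q + 3)))) (u : EuclideanSpace ℝ (Fin (q + 3))),
            IsLocalParam (spherePairProd q) ψ U ∧ u ∈ U ∧
              C < riemannNormSq (coordMetric (g t) ψ) u := by
  have hlt := h.lt
  have hq1 : 1 ≤ q := by omega
  set t₁ : ℝ := (t₀ + T) / 2 with ht₁
  set δ : ℝ := (t₁ - t₀) / 4 with hδ
  have hδ0 : 0 < δ := by rw [hδ, ht₁]; linarith
  obtain ⟨θ, hθ, hθ1, hθ2⟩ := time_cutoff hδ0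
  have hT' : 0 < T - t₁ := by rw [ht₁]; linarith
  -- times
  have hτ : ∀ t ∈ Ico (0 : ℝ) (T - t₁), t₁ + t ∈ Ioo t₀ T := by
    intro t ht
    constructor
    · have := ht.1; rw [ht₁]; linarith
    · have := ht.2; linarith
  have hg : ∀ t, 0 ≤ t → amb q A B C (t₁ + θ t) = amb q A B C (t₁ + t) := by
    intro t ht
    rw [hθ1 t (by linarith)]
  refine ⟨T - t₁, hT', fun s => amb q A B C (t₁ + θ s), ⟨?_, ?_⟩, ?_, ?_⟩
  · -- smoothness
    refine amb_contDiffOn q h.toRedMetric (θ := fun s => t₁ + θ s) (contDiff_const.add hθ) ?_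
    intro s hs
    by_cases hsd : -δ ≤ s
    · rw [hθ1 s hsd]
      constructor
      · rw [hδ] at hsd; linarith
      · have := hs.2; linarith
    · have h2 := hθ2 s (le_of_lt (not_le.1 hsd))
      constructor
      · have := h2.1; rw [hδ] at this; linarith
      · have := h2.2; linarith
  · -- flow
    intro ψ U hψ t ht u hu
    have hτt := hτ t ht
    simp only
    rw [hg t ht.1]
    refine ⟨(chart_regular h.toRedMetric hτt hψ).2.1 u hu, fun i j => ?_⟩
    have h1 := coordMetric_hasDerivAt q h.toRedMetric hτt ψ u i j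
    have h2 : HasDerivAt (fun s => coordMetric (amb q A B C (t₁ + s)) ψ u i j)
        (coordMetric (ambDot q A B C (t₁ + t)) ψ u i j) t := h1.comp_const_add t₁ t
    have h3 : coordMetric (ambDot q A B C (t₁ + t)) ψ u i j =
        -2 * ricciCoord (coordMetric (amb q A B C (t₁ + t)) ψ) u i j := by
      rw [rf_all hq1 h hτt hψ hu]
      simp [ricM]
    rw [← h3]
    refine h2.congr_of_eventuallyEq ?_
    have hmem : Ioi (-δ) ∈ 𝓝 t := Ioi_mem_nhds (by have := ht.1; linarith)
    filter_upwards [hmem] with s hs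
    rw [hθ1 s (le_of_lt hs)]
  · -- scalar curvature
    obtain ⟨C₀, hC₀⟩ := hR
    refine ⟨C₀, fun ψ U hψ t ht u hu => ?_⟩
    simp only
    rw [hg t ht.1]
    exact scal_all hq1 h hC₀ (hτ t ht) hψ hu
  · -- blow up
    intro K
    obtain ⟨δ', hδ', hK'⟩ := hK K
    refine ⟨min δ' (T - t₁), lt_min hδ' hT', fun t ht => ?_⟩
    have ht0 : 0 ≤ t := by
      have := ht.1
      have h5 := min_le_right δ' (T - t₁)
      linarith
    have hτt := hτ t ⟨ht0, ht.2⟩
    have h6 : t₁ + t ∈ Ioo (T - δ') T := by
      constructor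
      · have := ht.1
        have h5 := min_le_left δ' (T - t₁)
        linarith
      · exact hτt.2
    obtain ⟨y, hy, hKy⟩ := hK' (t₁ + t) h6 hτt.1
    obtain ⟨ψ, U, u, hψ, hu, hle⟩ := blow_chart h hτt hy
    refine ⟨ψ, U, u, hψ, hu, ?_⟩
    simp only
    rw [hg t ht0]
    exact lt_of_lt_of_le hKy hle

end Claimed.Agent.R324
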